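import Mathlib
import Vale.Agent.P193.W4.Readout
import Vale.Agent.P193.Action.Spec
import Vale.Agent.P193.Action.CompList

/-!
P193, module W4 B (`notes/P193_W4_frozen.md`): the path of a point of the action as a sequence of
letters, and the computable sequence of the words that begin no path. These words are the
emissions of the common layer.
-/

namespace Vale.Agent.P193.W4.Coset

open Vale.Agent.P193.Action

variable {K : Type} [Group K] {k : ℕ} {g : Fin k → K} (E : EffAction K g)

/-- The letters of a point: track `none` is the point, track `some s` its translate by `(g s)⁻¹`. -/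
def path (y : ℕ → Bool) (n : ℕ) : Full k
  | none => y n
  | some s => E.act (g s)⁻¹ y n

/-- `w` is a prefix of the sequence `c`. -/
def IsPreW {α : Type} (w : List α) (c : ℕ → α) : Prop := ∀ (i : ℕ) (h : i < w.length), w[i] = c i

/-- The word begins no path of a point. -/
def NoExt (w : List (Full k)) : Prop := ∀ y ∈ E.Y, ¬IsPreW w (path E y)

lemma NoExt.ne_nil {w : List (Full k)} (h : NoExt E w) : w ≠ [] := by
  rintro rfl
  obtain ⟨y, hy⟩ := E.nonempty
  exact h y hy fun i hi => absurd hi (Nat.not_lt_zero i)

lemma isPreW_append_left {α : Type} {w v : List α} {c : ℕ → α} (h : IsPreW (w ++ v) c) :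
    IsPreW w c := fun i hi => by
  have h1 := h i (by simp; omega)
  rwa [List.getElem_append_left hi] at h1

lemma NoExt.append {w : List (Full k)} (h : NoExt E w) (v : List (Full k)) : NoExt E (w ++ v) :=
  fun y hy hp => h y hy (isPreW_append_left hp)

/-- Every word extends to one that begins no path. -/
lemma exists_noExt_append (s : Fin k) (w : List (Full k)) : ∃ v, NoExt E (w ++ v) := by
  obtain ⟨i, hi⟩ := E.cont (g s)⁻¹ w.length
  by_cases h : i < w.length
  · refine ⟨[fun _ => !(w[i] none)], fun y _ hp => ?_⟩
    have h1 := congrFun (hp w.length (by simp)) (some s)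
    have h2 := congrFun (hp i (by simp; omega)) none
    rw [List.getElem_append_left h] at h2
    simp only [List.getElem_append_right le_rfl, path, hi y] at h1 h2
    rw [h2] at h1
    cases y i <;> simp at h1
  · refine ⟨List.replicate (i - w.length + 1) (fun t => t.isSome), fun y _ hp => ?_⟩
    have h1 := congrFun (hp w.length (by simp)) (some s)
    have h2 := congrFun (hp i (by simp; omega)) none
    rw [List.getElem_append_right (by omega), List.getElem_replicate] at h1 h2
    simp only [path, hi y, Option.isSome_some, Option.isSome_none] at h1 h2
    rw [← h2] at h1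
    simp at h1

/-! ### The test -/

/-- The item is a joint prefix of the tracks of the word. -/
def matchB (w : List (Full k)) (it : List Bool × List (List Bool)) : Bool :=
  (it.1 == (w.map fun d => d none).take it.1.length) &&
    (List.finRange k).all fun s =>
      it.2.getD (s : ℕ) [] == (w.map fun d => d (some s)).take (it.2.getD (s : ℕ) []).length

/-- One of the first `n` items is a joint prefix of the tracks of the word. -/
def killedB (n : ℕ) (w : List (Full k)) : Bool :=
  (List.range n).any fun i => ((E.bad i).map (matchB w)).getD false

/-- The words of length `n`. -/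
def wordsL (k n : ℕ) (all : List (Full k)) : List (List (Full k)) :=
  Nat.rec [[]] (fun _ ih => ih.flatMap fun v => all.map fun d => d :: v) n

/-- All extensions by `n` letters are killed by the first `n` items. -/
def testB (all : List (Full k)) (w : List (Full k)) (n : ℕ) : Bool :=
  (wordsL k n all).all fun v => killedB E n (w ++ v)

lemma mem_wordsL {all : List (Full k)} (hall : ∀ d, d ∈ all) :
    ∀ n (v : List (Full k)), v ∈ wordsL k n all ↔ v.length = n := by
  intro n
  induction n with
  | zero => intro v; simp [wordsL]
  | succ n ih =>
    intro v
    simp only [wordsL] at ih ⊢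
    simp only [List.mem_flatMap, List.mem_map, ih]
    constructor
    · rintro ⟨v', hv', d, -, rfl⟩
      simp [hv']
    · intro hv
      cases v with
      | nil => simp at hv
      | cons d v' => exact ⟨v', by simpa using hv, d, hall d, rfl⟩

lemma beq_take_iff {α : Type} [BEq α] [LawfulBEq α] (a t : List α) :
    (a == t.take a.length) = true ↔ a.length ≤ t.length ∧ ∀ i (h : i < a.length), t[i]? = some a[i] := by
  rw [beq_iff_eq, ← List.prefix_iff_eq_take]
  constructor
  · intro h
    exact ⟨h.length_le, fun i hi => by
      rw [List.getElem?_eq_getElem (by have := h.length_le; omega), h.getElem hi]⟩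
  · rintro ⟨hl, h⟩
    refine List.prefix_iff_getElem?.2 fun i hi => ?_
    simpa using h i hi

lemma matchB_iff {w : List (Full k)} {c : ℕ → Full k} (hc : IsPreW w c)
    (it : List Bool × List (List Bool)) :
    matchB w it = true ↔ it.1.length ≤ w.length ∧
      (∀ s : Fin k, (it.2.getD (s : ℕ) []).length ≤ w.length) ∧
      Matches it (fun i => c i none) (fun s i => c i (some s)) := by
  have key : ∀ (t : Option (Fin k)) (a : List Bool),
      (a == (w.map fun d => d t).take a.length) = true ↔
        a.length ≤ w.length ∧ IsPre a (fun i => c i t) := fun t a => by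
    rw [beq_take_iff, List.length_map]
    refine and_congr_right fun hl => forall_congr' fun i => forall_congr' fun hi => ?_
    rw [List.getElem?_map, List.getElem?_eq_getElem (show i < w.length by omega), hc i (by omega)]
    simp [eq_comm]
  rw [matchB, Bool.and_eq_true, key none, List.all_eq_true]
  simp only [List.mem_finRange, forall_const, fun s : Fin k => key (some s)]
  constructor
  · rintro ⟨⟨h1, h2⟩, h3⟩
    exact ⟨h1, fun s => (h3 s).1, h2, fun s => (h3 s).2⟩
  · rintro ⟨h1, h2, h3, h4⟩
    exact ⟨⟨h1, h3⟩, fun s => ⟨h2 s, h4 s⟩⟩

lemma killedB_iff (n : ℕ) (w : List (Full k)) :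
    killedB E n w = true ↔ ∃ i < n, ∃ it, E.bad i = some it ∧ matchB w it = true := by
  simp only [killedB, List.any_eq_true, List.mem_range]
  refine exists_congr fun i => and_congr_right fun _ => ?_
  cases E.bad i <;> simp

/-- A sequence all of whose items fail is the path of a point. -/
lemma exists_path {c : ℕ → Full k}
    (h : ∀ n it, E.bad n = some it →
      ¬Matches it (fun i => c i none) (fun s i => c i (some s))) :
    ∃ y ∈ E.Y, c = path E y := by
  obtain ⟨hy, hs⟩ := (E.genuine _ _).2 h
  refine ⟨_, hy, ?_⟩
  funext i t
  cases t with
  | none => rfl
  | some s => exact congrFun (hs s) i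

lemma noExt_of_testB {all : List (Full k)} (hall : ∀ d, d ∈ all) {w : List (Full k)} {n : ℕ}
    (h : testB E all w n = true) : NoExt E w := by
  intro y hy hp
  have hv : List.ofFn (fun i : Fin n => path E y (w.length + i)) ∈ wordsL k n all :=
    (mem_wordsL hall n _).2 List.length_ofFn
  have hpre : IsPreW (w ++ List.ofFn fun i : Fin n => path E y (w.length + i)) (path E y) := by
    intro i hi
    by_cases h1 : i < w.length
    · rw [List.getElem_append_left h1, hp i h1]
    · rw [List.getElem_append_right (by omega), List.getElem_ofFn]
      exact congrArg (path E y) (by simp only; omega)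
  obtain ⟨i, -, it, hit, hm⟩ := (killedB_iff E n _).1 (List.all_eq_true.1 h _ hv)
  exact (E.genuine _ _).1 ⟨hy, fun s => rfl⟩ i it hit ((matchB_iff hpre it).1 hm).2.2

lemma testB_of_noExt (all : List (Full k)) (hall : ∀ d, d ∈ all) {w : List (Full k)}
    (h : NoExt E w) : ∃ n, testB E all w n = true := by
  let _ : TopologicalSpace (Full k) := ⊥
  have : DiscreteTopology (Full k) := ⟨rfl⟩
  let U : ℕ → Set (ℕ → Full k) := fun n =>
    {c | killedB E n (List.ofFn fun i : Fin (w.length + n) => c i) = true}
  have hU : ∀ n, IsOpen (U n) := fun n => by
    have hf : Continuous fun c : ℕ → Full k => fun i : Fin (w.length + n) => c i :=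
      continuous_pi fun i => continuous_apply (i : ℕ)
    exact hf.isOpen_preimage _ (isOpen_discrete {z | killedB E n (List.ofFn z) = true})
  have hpre : ∀ (c : ℕ → Full k) n, IsPreW (List.ofFn fun i : Fin n => c i) c :=
    fun c n i hi => by simp
  have hmono : Monotone U := fun a b hab c hc => by
    obtain ⟨i, hi, it, hit, hm⟩ := (killedB_iff E a _).1 hc
    obtain ⟨h1, h2, h3⟩ := (matchB_iff (hpre c _) it).1 hm
    refine (killedB_iff E b _).2 ⟨i, by omega, it, hit, (matchB_iff (hpre c _) it).2 ⟨?_, ?_, h3⟩⟩
    · simp only [List.length_ofFn] at h1 ⊢
      omega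
    · intro s
      have := h2 s
      simp only [List.length_ofFn] at this ⊢
      omega
  have hclosed : IsClosed {c : ℕ → Full k | IsPreW w c} := by
    simp only [IsPreW, Set.ofPred_forall]
    exact isClosed_iInter fun i => isClosed_iInter fun hi =>
      isClosed_eq continuous_const (continuous_apply i)
  have hcover : {c : ℕ → Full k | IsPreW w c} ⊆ ⋃ n, U n := fun c hc => by
    by_contra hn
    obtain ⟨y, hy, rfl⟩ := exists_path E (c := c) fun i it hit hm => by
      refine hn (Set.mem_iUnion.2 ⟨i + 1 + it.1.length +
        ∑ s : Fin k, (it.2.getD (s : ℕ) []).length, ?_⟩)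
      refine (killedB_iff E _ _).2 ⟨i, by omega, it, hit, (matchB_iff (hpre c _) it).2 ⟨?_, ?_, hm⟩⟩
      · simp only [List.length_ofFn]
        omega
      · intro s
        have := Finset.single_le_sum (f := fun s : Fin k => (it.2.getD (s : ℕ) []).length)
          (fun _ _ => Nat.zero_le _) (Finset.mem_univ s)
        simp only [List.length_ofFn] at this ⊢
        omega
    exact h y hy hc
  obtain ⟨n, hn⟩ := hclosed.isCompact.elim_directed_cover U hU hcover hmono.directed_le
  refine ⟨n, List.all_eq_true.2 fun v hv => ?_⟩
  have hlen := (mem_wordsL hall n v).1 hv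
  let c : ℕ → Full k := fun i => (w ++ v).getD i fun _ => false
  have hc : IsPreW (w ++ v) c := fun i hi => by
    simp only [c, List.getD_eq_getElem?_getD, List.getElem?_eq_getElem hi, Option.getD_some]
  have h1 : c ∈ U n := hn (isPreW_append_left hc)
  have h2 : (List.ofFn fun i : Fin (w.length + n) => c i) = w ++ v :=
    List.ext_getElem (by simp [hlen]) fun i _ hi => by rw [List.getElem_ofFn]; exact (hc i hi).symm
  simpa [U, h2] using h1

/-! ### Computability -/

section

variable [Primcodable (Full k)]

-- the codes of letters are those of the given primitive coding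
attribute [local instance 10000] Primcodable.toEncodable

lemma comp_killedB {α : Type} [Primcodable α] {n : α → ℕ} {w : α → List (Full k)}
    (hn : Computable n) (hw : Computable w) : Computable fun a => killedB E (n a) (w a) := by
  have hm : Computable₂ fun (w : List (Full k)) (it : List Bool × List (List Bool)) =>
      matchB w it := by
    have ht : ∀ t : Option (Fin k), Computable₂ fun (w : List (Full k)) (a : List Bool) =>
        a == (w.map fun d => d t).take a.length := fun t =>
      CompList.eq_bool Computable.snd
        (Primrec.list_take.to_comp.comp (Computable.list_length.comp Computable.snd)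
          (CompList.map_list Computable.fst
            ((Primrec.dom_finite fun d : Full k => d t).to_comp.comp Computable.snd).to₂))
    have hs : ∀ l : List (Fin k), Computable fun p : List (Full k) × List Bool × List (List Bool) =>
        l.all fun s => p.2.2.getD (s : ℕ) [] ==
          (p.1.map fun d => d (some s)).take (p.2.2.getD (s : ℕ) []).length := by
      intro l
      induction l with
      | nil => simpa using Computable.const true
      | cons s l ih =>
        simp only [List.all_cons]
        exact CompList.and_bool ((ht (some s)).comp Computable.fst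
          (CompList.getD_list (Computable.snd.comp Computable.snd) (Computable.const (s : ℕ)) [])) ih
    exact CompList.and_bool ((ht none).comp Computable.fst (Computable.fst.comp Computable.snd))
      (hs _)
  have h : Computable fun p : α × ℕ => ((E.bad p.2).map (matchB (w p.1))).getD false :=
    Computable.option_getD (Computable.option_map (E.bad_computable.comp Computable.snd)
      (hm.comp (hw.comp (Computable.fst.comp Computable.fst)) Computable.snd).to₂)
      (Computable.const false)
  exact CompList.any_list (CompList.range_list hn) h.to₂

lemma comp_testB (all : List (Full k)) : Computable₂ (testB E all) := by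
  have hW : Computable fun n => wordsL k n all := by
    refine (Computable.nat_rec
      (h := fun _ p => p.2.flatMap fun v => all.map fun d => d :: v) Computable.id
      (Computable.const ([[]] : List (List (Full k)))) ?_).of_eq fun n => rfl
    exact (CompList.flatMap_list (Computable.snd.comp Computable.snd)
      (CompList.map_list (Computable.const all)
        (Computable.list_cons.comp Computable.snd (Computable.snd.comp Computable.fst)).to₂).to₂).to₂
  exact CompList.all_list (hW.comp Computable.snd)
    (comp_killedB E (Computable.snd.comp Computable.fst)
      (Computable.list_append.comp (Computable.fst.comp Computable.fst) Computable.snd)).to₂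

/-- The emissions: a computable sequence of exactly the words that begin no path. -/
theorem exists_emit (hk : 0 < k) :
    ∃ e : ℕ → List (Full k), Computable e ∧ ∀ w, (∃ n, e n = w) ↔ NoExt E w := by
  obtain ⟨v₀, hv₀⟩ := exists_noExt_append E ⟨0, hk⟩ []
  let all : List (Full k) := Finset.univ.toList
  have hall : ∀ d : Full k, d ∈ all := fun d => Finset.mem_toList.2 (Finset.mem_univ d)
  refine ⟨fun c => ((Encodable.decode (α := List (Full k) × ℕ) c).map fun p =>
    bif testB E all p.1 p.2 then p.1 else [] ++ v₀).getD ([] ++ v₀), ?_, fun w => ⟨?_, fun h => ?_⟩⟩
  · refine Computable.option_getD ?_ (Computable.const _)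
    exact Computable.option_map (Computable.decode (α := List (Full k) × ℕ))
      (Computable.cond ((comp_testB E all).comp (Computable.fst.comp Computable.snd)
        (Computable.snd.comp Computable.snd)) (Computable.fst.comp Computable.snd)
        (Computable.const _)).to₂
  · rintro ⟨c, rfl⟩
    cases hd : (Encodable.decode (α := List (Full k) × ℕ) c) with
    | none => simpa [hd] using hv₀
    | some p =>
      cases ht : testB E all p.1 p.2 with
      | false => simpa [hd, ht] using hv₀
      | true => simpa [hd, ht] using noExt_of_testB E hall ht
  · obtain ⟨n, hn⟩ := testB_of_noExt E all hall h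
    exact ⟨Encodable.encode (w, n), by simp [hn]⟩

end

end Vale.Agent.P193.W4.Coset
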