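import Mathlib
import Vale.Agent.P193.W4.Interface

/-!
P193, module W4 B: coordinates with prescribed digits in a tower, and the fold above a cell which
lies on a line, a projection line, a bridge or a tested word.
-/

namespace Vale.Agent.P193.W4

variable {k : ℕ} {em : ℕ → Option (List (Full k))}

lemma base_pos_int (k : ℕ) : (0 : ℤ) < base k := by unfold base; omega

namespace Tower

variable (T : Tower k em)

/-- The tile of level `n` above a coordinate. -/
def coord (i : Fin 3) (x : ℤ) : ℕ → ℤ
  | 0 => x
  | n + 1 => (coord i x n + (T.shift n i).val) / (base k : ℤ)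

lemma tile_coord (v : Fin 3 → ℤ) (n : ℕ) (i : Fin 3) : T.tile v n i = T.coord i (v i) n := by
  induction n with
  | zero => rfl
  | succ n ih => simp [tile, coord, ih]

/-- The symbol of a coordinate at level `n`. -/
noncomputable def dsym (i : Fin 3) (x : ℤ) (n : ℕ) : Option (Mid k) :=
  sym ⟨((T.coord i x n + (T.shift n i).val) % (base k : ℤ)).toNat, by
    have := Int.emod_lt_of_pos (T.coord i x n + (T.shift n i).val) (base_pos_int k)
    have := Int.emod_nonneg (T.coord i x n + (T.shift n i).val) (base_pos_int k).ne'
    omega⟩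

/-- The symbols of a cell at level `n`. -/
noncomputable def zs (v : Fin 3 → ℤ) (n : ℕ) (i : Fin 3) : Option (Mid k) := sym (T.digit v n i)

lemma zs_eq (v : Fin 3 → ℤ) (n : ℕ) (i : Fin 3) : T.zs v n i = T.dsym i (v i) n :=
  congrArg sym (Fin.ext (by simp [digit, tile_coord]))

/-- The state of the tile of level `n` above a cell. -/
def stAt (v : Fin 3 → ℤ) (n : ℕ) : St k := T.st n (T.tile v n)

lemma stAt_zero (v : Fin 3 → ℤ) : T.stAt v 0 = T.st 0 v := rfl

lemma stAt_step (v : Fin 3 → ℤ) (n : ℕ) :
    T.stAt v n = (T.stAt v (n + 1)).step em n (T.zs v n) := T.step n _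

lemma flags_step (v : Fin 3 → ℤ) (n : ℕ) :
    (T.stAt v n).flags = (T.stAt v (n + 1)).flags.step (T.zs v n) := by
  rw [stAt_step]; rfl

/-- Coordinates with prescribed digits below `P` in a given tile. -/
lemma exists_coord (i : Fin 3) (z : ℕ → Fin (base k)) :
    ∀ (P : ℕ) (t : ℤ), ∃ x, T.coord i x P = t ∧ ∀ m < P, T.dsym i x m = sym (z m)
  | 0, t => ⟨t, rfl, fun m hm => absurd hm (Nat.not_lt_zero m)⟩
  | P + 1, t => by
    obtain ⟨x, hx, hd⟩ := exists_coord i z P (t * base k + (z P).val - (T.shift P i).val)
    have hlt : ((z P).val : ℤ) < base k := by exact_mod_cast (z P).isLt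
    refine ⟨x, ?_, fun m hm => ?_⟩
    · rw [coord, hx, sub_add_cancel, Int.add_comm, Int.add_mul_ediv_right _ _ (base_pos_int k).ne',
        Int.ediv_eq_zero_of_lt (Int.natCast_nonneg _) hlt, zero_add]
    · rcases Nat.lt_succ_iff_lt_or_eq.1 hm with h | rfl
      · exact hd m h
      · refine congrArg sym (Fin.ext ?_)
        simp only [hx, sub_add_cancel]
        rw [Int.add_comm, Int.add_mul_emod_self_right,
          Int.emod_eq_of_lt (Int.natCast_nonneg _) hlt, Int.toNat_natCast]

/-- A coordinate in a given tile with prescribed symbols below `P`. -/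
lemma exists_symCoord (i : Fin 3) (z : ℕ → Mid k) (P : ℕ) (t : ℤ) :
    ∃ x, T.coord i x P = t ∧ ∀ m < P, T.dsym i x m = some (z m) := by
  obtain ⟨x, hx, hd⟩ := T.exists_coord i (fun m => pos (z m)) P t
  exact ⟨x, hx, fun m hm => by rw [hd m hm]; exact sym_eq_some.2 rfl⟩

/-! ### Lines -/

/-- A line of kind `i` with slot `σ`: a marker above the letters of `σ` on axis `i`, and the same
letters on axis `i + 1`. -/
def Line (v : Fin 3 → ℤ) (i : Fin 3) (σ : List (Full k)) : Prop :=
  T.zs v σ.length i = some .hash ∧
    ∀ l (h : l < σ.length), T.zs v l i = some (.full σ[l]) ∧ T.zs v l (i + 1) = some (.full σ[l])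

/-- A projection line. -/
def PLine (v : Fin 3 → ℤ) (i : Fin 3) (π : List Bool) : Prop :=
  T.zs v π.length i = some .phash ∧
    ∀ l (h : l < π.length), T.zs v l i = some (.pad π[l]) ∧ T.zs v l (i + 1) = some (.pad π[l])

/-- A bridge. -/
def Bridge (v : Fin 3 → ℤ) (s : Option (Fin k)) (σ : List (Full k)) : Prop :=
  (T.zs v σ.length 0 = some .hash ∧ T.zs v σ.length 1 = some .phash) ∧
    ∀ l (h : l < σ.length), T.zs v l 0 = some (.full σ[l]) ∧ T.zs v l 1 = some (.pad (σ[l] s))

/-- The relation given by the top of a line and the two digits of the other axis there. -/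
def relTop {α : Type} (h : Mid k) (letter : Mid k → Option α) : Option (Mid k) → Option (Mid k) → Rel α
  | some m, up => if m = h then .same else match letter m with
    | some d => if up = some h then .next d else .later d
    | none => .apart
  | none, _ => .apart

/-- The letter of a symbol. -/
def fullOf : Mid k → Option (Full k)
  | .full d => some d
  | _ => none

/-- The padded letter of a symbol. -/
def padOf : Mid k → Option Bool
  | .pad b => some b
  | _ => none

variable {T}

lemma Line.flags {v : Fin 3 → ℤ} {i : Fin 3} {σ : List (Full k)} (h : T.Line v i σ) :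
    ∀ n ≤ σ.length, (T.stAt v n).flags.eq i = true ∧ (T.stAt v n).flags.rel i =
      relTop Mid.hash fullOf (T.zs v σ.length (i + 1)) (T.zs v (σ.length + 1) (i + 1)) := by
  intro n hn
  induction hn using Nat.decreasingInduction with
  | self =>
    have hw : (T.stAt v (σ.length + 1)).flags.wasH (i + 1) =
        decide (T.zs v (σ.length + 1) (i + 1) = some .hash) := by rw [flags_step]; rfl
    rw [flags_step]
    refine ⟨by simp [Flags.step, h.1], ?_⟩
    simp only [Flags.step, h.1, hw]
    rcases T.zs v σ.length (i + 1) with _ | m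
    · rfl
    · cases m <;> simp [relTop, fullOf]
  | of_succ l hl ih =>
    obtain ⟨h1, h2⟩ := h.2 l hl
    rw [flags_step]
    simp [Flags.step, h1, h2, ih.1, ih.2]

lemma PLine.flags {v : Fin 3 → ℤ} {i : Fin 3} {π : List Bool} (h : T.PLine v i π) :
    ∀ n ≤ π.length, (T.stAt v n).flags.peq i = true ∧ (T.stAt v n).flags.prel i =
      relTop Mid.phash padOf (T.zs v π.length (i + 1)) (T.zs v (π.length + 1) (i + 1)) := by
  intro n hn
  induction hn using Nat.decreasingInduction with
  | self =>
    have hw : (T.stAt v (π.length + 1)).flags.wasP (i + 1) =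
        decide (T.zs v (π.length + 1) (i + 1) = some .phash) := by rw [flags_step]; rfl
    rw [flags_step]
    refine ⟨by simp [Flags.step, h.1], ?_⟩
    simp only [Flags.step, h.1, hw]
    rcases T.zs v π.length (i + 1) with _ | m
    · rfl
    · cases m <;> simp [relTop, padOf]
  | of_succ l hl ih =>
    obtain ⟨h1, h2⟩ := h.2 l hl
    rw [flags_step]
    simp [Flags.step, h1, h2, ih.1, ih.2]

lemma Bridge.flags {v : Fin 3 → ℤ} {s : Option (Fin k)} {σ : List (Full k)}
    (h : T.Bridge v s σ) : ∀ n ≤ σ.length, (T.stAt v n).flags.br s = true := by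
  intro n hn
  induction hn using Nat.decreasingInduction with
  | self =>
    rw [flags_step]
    simp [Flags.step, h.1.1, h.1.2]
  | of_succ l hl ih =>
    obtain ⟨h1, h2⟩ := h.2 l hl
    rw [flags_step]
    simp [Flags.step, h1, h2, ih]

/-- Below a tile with a word, passing down keeps the lowest letters. -/
lemma word_of_pass {v : Fin 3 → ℤ} {L : ℕ} {W : Word k} (hW : (T.stAt v L).word = some W)
    (hlen : W.length = L) (hp : ∀ l < L, T.zs v l 2 = some .pass) :
    ∀ n ≤ L, (T.stAt v n).word = some (W.take n) := by
  intro n hn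
  induction hn using Nat.decreasingInduction with
  | self => rw [hW, List.take_of_length_le hlen.le]
  | of_succ l hl ih =>
    rw [stAt_step]
    simp [St.step, wordStep, hp l hl, ih, List.take_take]

lemma topLetter_top {W : Word k} {n : ℕ} (hn : 0 < n) (hW : n ≤ W.length) :
    topLetter (some (W.take n)) = W[n - 1] := by
  simp [topLetter, List.getLast?_eq_getElem?, List.length_take, min_eq_left hW,
    show n - 1 < n by omega]

/-- The letters `w` under stars, passed down, are matched. -/
lemma hit_of_word {v : Fin 3 → ℤ} {L : ℕ} {w : List (Full k)} (hw : w ≠ []) (hwL : w.length ≤ L)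
    (hW : (T.stAt v L).word = some (padWord L w))
    (htop : w.length = L → T.zs v L 2 = some .reset)
    (hp : ∀ l < L, T.zs v l 2 = some .pass) (h0 : T.zs v w.length 0 = some .hash)
    (hf : ∀ l (h : l < w.length), T.zs v l 0 = some (.full w[l])) :
    (T.stAt v 0).hit = true := by
  have hlen : (padWord L w).length = L := by simp [padWord]
  have hword := word_of_pass hW hlen hp
  have hget : ∀ j (h : j < L), (padWord L w)[j]'(hlen.symm ▸ h) = w[j]? := fun j h => by
    by_cases hj : j < w.length <;> simp [padWord, List.getElem_append, hj]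
  have hm : 0 < w.length := List.length_pos_iff.2 hw
  have htopw : topLetter (T.stAt v w.length).word = some w[w.length - 1] := by
    rw [hword _ hwL, topLetter_top hm (by omega), hget _ (by omega),
      List.getElem?_eq_getElem (by omega)]
  have key : ∀ n ≤ w.length, (T.stAt v n).hit = true := by
    intro n hn
    induction hn using Nat.decreasingInduction with
    | self =>
      rw [stAt_step] at htopw ⊢
      simp only [St.step] at htopw ⊢
      rw [htopw]
      rcases hwL.lt_or_eq with hlt | heq
      · rw [hword (w.length + 1) hlt, topLetter_top (by omega) (by omega), hget _ (by omega)]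
        simp [matchStep, hp _ hlt, h0]
      · simp [matchStep, heq ▸ htop heq, h0]
    | of_succ l hl ih =>
      rw [stAt_step]
      simp only [St.step]
      rw [hword (l + 1) (by omega), topLetter_top (by omega) (by omega), hget _ (by omega)]
      simp [matchStep, hp l (by omega), hf l hl, ih, List.getElem?_eq_getElem hl]
  exact key 0 (Nat.zero_le _)

variable (T) in
/-- A line below a dead digit has a finite slot. -/
lemma line_of_eq (v : Fin 3 → ℤ) (i : Fin 3) :
    ∀ (j m : ℕ), (T.stAt v m).flags.eq i = true → T.zs v (m + j) i = none →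
      ∃ σ : List (Full k), σ.length < j ∧ T.zs v (m + σ.length) i = some .hash ∧
        ∀ l (h : l < σ.length), T.zs v (m + l) i = some (.full σ[l]) ∧
          T.zs v (m + l) (i + 1) = some (.full σ[l])
  | 0, m, he, hn => by
    rw [flags_step] at he
    rw [Nat.add_zero] at hn
    simp [Flags.step, hn] at he
  | j + 1, m, he, hn => by
    rw [flags_step] at he
    rcases hz : T.zs v m i with _ | e
    · simp [Flags.step, hz] at he
    cases e <;> simp [Flags.step, hz] at he
    case full d =>
      obtain ⟨σ, h1, h2, h3⟩ := line_of_eq v i j (m + 1) he.1 (by rwa [Nat.add_right_comm])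
      refine ⟨d :: σ, by simpa using h1, by simpa [Nat.add_right_comm m 1, Nat.add_assoc] using h2,
        fun l hl => ?_⟩
      rcases l with _ | l
      · exact ⟨by simpa using hz, by simpa using he.2⟩
      · have := h3 l (by simpa using hl)
        rwa [show m + (l + 1) = m + 1 + l by omega]
    case hash =>
      exact ⟨[], by simp, by simpa using hz, fun l hl => absurd hl (Nat.not_lt_zero l)⟩

variable (T) in
/-- A projection line below a dead digit has a finite slot. -/
lemma pline_of_peq (v : Fin 3 → ℤ) (i : Fin 3) :
    ∀ (j m : ℕ), (T.stAt v m).flags.peq i = true → T.zs v (m + j) i = none →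
      ∃ π : List Bool, π.length < j ∧ T.zs v (m + π.length) i = some .phash ∧
        ∀ l (h : l < π.length), T.zs v (m + l) i = some (.pad π[l]) ∧
          T.zs v (m + l) (i + 1) = some (.pad π[l])
  | 0, m, he, hn => by
    rw [flags_step] at he
    rw [Nat.add_zero] at hn
    simp [Flags.step, hn] at he
  | j + 1, m, he, hn => by
    rw [flags_step] at he
    rcases hz : T.zs v m i with _ | e
    · simp [Flags.step, hz] at he
    cases e <;> simp [Flags.step, hz] at he
    case pad d =>
      obtain ⟨π, h1, h2, h3⟩ := pline_of_peq v i j (m + 1) he.1 (by rwa [Nat.add_right_comm])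
      refine ⟨d :: π, by simpa using h1, by simpa [Nat.add_right_comm m 1, Nat.add_assoc] using h2,
        fun l hl => ?_⟩
      rcases l with _ | l
      · exact ⟨by simpa using hz, by simpa using he.2⟩
      · have := h3 l (by simpa using hl)
        rwa [show m + (l + 1) = m + 1 + l by omega]
    case phash =>
      exact ⟨[], by simp, by simpa using hz, fun l hl => absurd hl (Nat.not_lt_zero l)⟩

variable (T) in
/-- A bridge below a dead digit has a finite slot. -/
lemma bridge_of_br (v : Fin 3 → ℤ) (s : Option (Fin k)) :
    ∀ (j m : ℕ), (T.stAt v m).flags.br s = true → T.zs v (m + j) 0 = none →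
      ∃ σ : List (Full k), σ.length < j ∧ T.zs v (m + σ.length) 0 = some .hash ∧
        T.zs v (m + σ.length) 1 = some .phash ∧
        ∀ l (h : l < σ.length), T.zs v (m + l) 0 = some (.full σ[l]) ∧
          T.zs v (m + l) 1 = some (.pad (σ[l] s))
  | 0, m, he, hn => by
    rw [flags_step] at he
    rw [Nat.add_zero] at hn
    simp [Flags.step, hn] at he
  | j + 1, m, he, hn => by
    rw [flags_step] at he
    rcases hz : T.zs v m 0 with _ | e
    · simp [Flags.step, hz] at he
    cases e <;> simp [Flags.step, hz] at he
    case full d =>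
      obtain ⟨σ, h1, h2, h3, h4⟩ := bridge_of_br v s j (m + 1) he.1 (by rwa [Nat.add_right_comm])
      refine ⟨d :: σ, by simpa using h1, by simpa [Nat.add_right_comm m 1, Nat.add_assoc] using h2,
        by simpa [Nat.add_right_comm m 1, Nat.add_assoc] using h3, fun l hl => ?_⟩
      rcases l with _ | l
      · exact ⟨by simpa using hz, by simpa using he.2⟩
      · have := h4 l (by simpa using hl)
        rwa [show m + (l + 1) = m + 1 + l by omega]
    case hash =>
      exact ⟨[], by simp, by simpa using hz, by simpa using he,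
        fun l hl => absurd hl (Nat.not_lt_zero l)⟩

/-- A line at a cell has a slot below any dead digit. -/
lemma exists_line {v : Fin 3 → ℤ} {i : Fin 3} {n : ℕ} (he : (T.stAt v 0).flags.eq i = true)
    (hn : T.zs v n i = none) : ∃ σ, T.Line v i σ ∧ σ.length < n := by
  obtain ⟨σ, h1, h2, h3⟩ := T.line_of_eq v i n 0 he (by rwa [Nat.zero_add])
  simp only [Nat.zero_add] at h2 h3
  exact ⟨σ, ⟨h2, h3⟩, h1⟩

/-- A projection line at a cell has a slot below any dead digit. -/
lemma exists_pline {v : Fin 3 → ℤ} {i : Fin 3} {n : ℕ} (he : (T.stAt v 0).flags.peq i = true)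
    (hn : T.zs v n i = none) : ∃ π, T.PLine v i π ∧ π.length < n := by
  obtain ⟨π, h1, h2, h3⟩ := T.pline_of_peq v i n 0 he (by rwa [Nat.zero_add])
  simp only [Nat.zero_add] at h2 h3
  exact ⟨π, ⟨h2, h3⟩, h1⟩

/-- A bridge at a cell has a slot below any dead digit. -/
lemma exists_bridge {v : Fin 3 → ℤ} {s : Option (Fin k)} {n : ℕ}
    (he : (T.stAt v 0).flags.br s = true) (hn : T.zs v n 0 = none) :
    ∃ σ, T.Bridge v s σ ∧ σ.length < n := by
  obtain ⟨σ, h1, h2, h3, h4⟩ := T.bridge_of_br v s n 0 he (by rwa [Nat.zero_add])
  simp only [Nat.zero_add] at h2 h3 h4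
  exact ⟨σ, ⟨⟨h2, h3⟩, h4⟩, h1⟩

end Tower

end Vale.Agent.P193.W4
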