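import Mathlib
import Vale.Agent.P193.W4.Coset.Emit
import Vale.Agent.P193.W4.Coset.Fold

/-!
P193, module W4 B2 (`notes/P193_W4_frozen.md`, section 3): fields that satisfy the rules of the
coset layer over a tower are the slot fields of one point of the action, and the starred words of
the tower begin no path.
-/

namespace Vale.Agent.P193.W4.Coset

open Vale.Agent.P193.Action

variable {k : ℕ}

/-- Fields of one coset over a tower that satisfy the rules inside a coset. -/
structure One {em : ℕ → Option (List (Full k))} (T : Tower k em)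
    (c : (Fin 3 → ℤ) → JCell k) : Prop where
  cell : ∀ v, CellOK (T.zs v 0) (T.stAt v 0).flags (T.stAt v 0).hit (c v)
  line : ∀ v a, LineOK a (c v) (c (Function.update v a (v a + 1)))

lemma const_of_succ {β : Type*} {f : ℤ → β} (h : ∀ x, f x = f (x + 1)) (a b : ℤ) : f a = f b := by
  have h0 : ∀ x, f 0 = f x := fun x => by
    induction x using Int.induction_on with
    | zero => rfl
    | succ i ih => rw [ih, h]
    | pred i ih => rw [ih, h (-(i : ℤ) - 1), sub_add_cancel]
  rw [← h0 a, ← h0 b]

/-- The value of a slot with root and nested rules follows one sequence. -/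
lemma exists_seq {α : Type} (f : List α → Option α) (h0 : (f []).isSome)
    (h : ∀ σ d, f σ = some d ↔ (f (σ ++ [d])).isSome) :
    ∃ c : ℕ → α, (∀ σ, IsPreW σ c → f σ = some (c σ.length)) ∧
      ∀ σ, (f σ).isSome → IsPreW σ c := by
  classical
  obtain ⟨d₀, hd₀⟩ := Option.isSome_iff_exists.1 h0
  let P : ℕ → List α := fun n => Nat.rec [] (fun _ ih => ih ++ [(f ih).getD d₀]) n
  have hP : ∀ n, P (n + 1) = P n ++ [(f (P n)).getD d₀] := fun n => rfl
  have hlen : ∀ n, (P n).length = n := fun n => by
    induction n with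
    | zero => rfl
    | succ n ih => rw [hP, List.length_append, ih]; rfl
  have hsome : ∀ n, f (P n) = some ((f (P n)).getD d₀) := fun n => by
    suffices (f (P n)).isSome by
      obtain ⟨d, hd⟩ := Option.isSome_iff_exists.1 this
      simp [hd]
    induction n with
    | zero => exact h0
    | succ n ih =>
      rw [hP]
      obtain ⟨d, hd⟩ := Option.isSome_iff_exists.1 ih
      exact (h _ _).1 (by simp [hd])
  let c : ℕ → α := fun n => (f (P n)).getD d₀
  have hpre : ∀ σ, IsPreW σ c → σ = P σ.length := by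
    intro σ
    induction σ using List.reverseRecOn with
    | nil => intro; rfl
    | append_singleton σ d ih =>
      intro hp
      have h1 := ih (isPreW_append_left hp)
      have h2 : d = c σ.length := by simpa using hp σ.length (by simp)
      rw [List.length_append, List.length_singleton, hP, ← h1, h2]
      simp only [c, ← h1]
  refine ⟨c, fun σ hσ => ?_, fun σ => ?_⟩
  · simp only [c]
    rw [← hpre σ hσ]
    have := hsome σ.length
    rwa [← hpre σ hσ] at this
  · induction σ using List.reverseRecOn with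
    | nil => exact fun _ i hi => absurd hi (Nat.not_lt_zero i)
    | append_singleton σ d ih =>
      intro hs
      have h1 := (h σ d).2 hs
      have h2 := ih (by rw [h1]; rfl)
      intro i hi
      by_cases hlt : i < σ.length
      · rw [List.getElem_append_left hlt]
        exact h2 i hlt
      · have hi' : i = σ.length := by simp at hi; omega
        subst hi'
        have h3 := hsome σ.length
        rw [← hpre σ h2, h1] at h3
        simp only [List.getElem_append_right le_rfl, Nat.sub_self, List.getElem_cons_zero, c]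
        rw [← hpre σ h2, h1]
        rfl

lemma fin3 (i : Fin 3) : i ≠ i + 2 ∧ i + 1 ≠ i + 2 ∧ i + 2 ≠ i ∧ i + 1 ≠ i ∧
    i + 2 + 1 = i ∧ i + 1 + 1 = i + 2 ∧ ∀ x, x = i ∨ x = i + 1 ∨ x = i + 2 := by
  revert i; decide

namespace One

variable {em : ℕ → Option (List (Full k))} {T : Tower k em}
  {c : (Fin 3 → ℤ) → JCell k} (hc : One T c)

include hc

lemma slide {i : Fin 3} {v w : Fin 3 → ℤ} (h0 : v i = w i) (h1 : v (i + 1) = w (i + 1)) :
    (c v).J i = (c w).J i ∧ (c v).Q i = (c w).Q i := by
  have e : ∀ x, v x = w x ∨ x = i + 2 := fun x => by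
    rcases (fin3 i).2.2.2.2.2.2 x with rfl | rfl | rfl <;> simp [h0, h1]
  have hw : w = Function.update v (i + 2) (w (i + 2)) := by
    funext x
    by_cases hx : x = i + 2
    · simp [hx]
    · rw [Function.update_of_ne hx, (e x).resolve_right hx]
  have h := const_of_succ (f := fun x : ℤ => ((c (Function.update v (i + 2) x)).J i,
    (c (Function.update v (i + 2) x)).Q i)) (fun x => by
      obtain ⟨h2, h3⟩ := (hc.line (Function.update v (i + 2) x) (i + 2)).1 i rfl
      simp only [Function.update_idem, Function.update_self] at h2 h3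
      simp [h2, h3]) (v (i + 2)) (w (i + 2))
  rw [Function.update_eq_self, ← hw] at h
  simpa using h

lemma slideB {v w : Fin 3 → ℤ} (h0 : v 0 = w 0) (h1 : v 1 = w 1) :
    (c v).B = (c w).B := by
  have hw : w = Function.update v 2 (w 2) := by
    funext x
    fin_cases x <;> simp [h0, h1]
  have h := const_of_succ (f := fun x : ℤ => (c (Function.update v 2 x)).B) (fun x => by
    have h2 := (hc.line (Function.update v 2 x) 2).2 rfl
    simpa using h2) (v 2) (w 2)
  rwa [Function.update_eq_self, ← hw] at h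

end One

variable {em : ℕ → Option (List (Full k))} (T : Tower k em)

/-- The coordinate on axis `i` with a marker above the letters of `σ`. -/
noncomputable def markAt (i : Fin 3) (σ : List (Full k)) : ℤ :=
  (T.exists_symCoord i (fun l => (σ[l]?).elim .hash .full) (σ.length + 1) 0).choose

/-- The coordinate on axis `i` with a padded marker above the letters of `π`. -/
noncomputable def pmarkAt (i : Fin 3) (π : List Bool) : ℤ :=
  (T.exists_symCoord i (fun l => (π[l]?).elim .phash .pad) (π.length + 1) 0).choose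

lemma dsym_markAt (i : Fin 3) (σ : List (Full k)) :
    T.dsym i (markAt T i σ) σ.length = some .hash ∧
      ∀ l (h : l < σ.length), T.dsym i (markAt T i σ) l = some (.full σ[l]) := by
  have h := (T.exists_symCoord i (fun l => (σ[l]?).elim .hash .full) (σ.length + 1) 0).choose_spec.2
  exact ⟨by simpa [markAt] using h σ.length (by omega), fun l hl => by
    simpa [markAt, hl] using h l (by omega)⟩

lemma dsym_pmarkAt (i : Fin 3) (π : List Bool) :
    T.dsym i (pmarkAt T i π) π.length = some .phash ∧
      ∀ l (h : l < π.length), T.dsym i (pmarkAt T i π) l = some (.pad π[l]) := by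
  have h := (T.exists_symCoord i (fun l => (π[l]?).elim .phash .pad) (π.length + 1) 0).choose_spec.2
  exact ⟨by simpa [pmarkAt] using h π.length (by omega), fun l hl => by
    simpa [pmarkAt, hl] using h l (by omega)⟩

/-- The cell with the marker of `σ` on all axes. -/
noncomputable def home (σ : List (Full k)) : Fin 3 → ℤ := fun i => markAt T i σ

/-- The cell with the padded marker of `π` on all axes. -/
noncomputable def phome (π : List Bool) : Fin 3 → ℤ := fun i => pmarkAt T i π

/-- The value of a slot. -/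
noncomputable def slotVal (c : (Fin 3 → ℤ) → JCell k) (σ : List (Full k)) :
    Option (Full k) := (c (home T σ)).J 0

/-- The value of a projection slot. -/
noncomputable def pslotVal (c : (Fin 3 → ℤ) → JCell k) (t : Option (Fin k))
    (π : List Bool) : Option Bool := (c (phome T π)).Q 0 t

/-- What the fields of a coset with path `p` are at the finite slots, and what they need at the
others. -/
structure Reads (T : Tower k em) (c : (Fin 3 → ℤ) → JCell k) (p : ℕ → Full k) : Prop where
  line : ∀ {v i σ}, T.Line v i σ → (c v).J i = slotVal T c σ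
  bridge : ∀ {v s σ}, T.Bridge v s σ → (c v).B = slotVal T c σ
  pline : ∀ {v i π} (t), T.PLine v i π → (c v).Q i t = pslotVal T c t π
  slot : ∀ {σ}, IsPreW σ p → slotVal T c σ = some (p σ.length)
  slot_off : ∀ {σ}, ¬IsPreW σ p → slotVal T c σ = none
  pslot : ∀ {t π}, IsPreW π (fun n => p n t) → pslotVal T c t π = some (p π.length t)
  pslot_off : ∀ {t π}, ¬IsPreW π (fun n => p n t) → pslotVal T c t π = none

namespace One

variable {T} {c : (Fin 3 → ℤ) → JCell k} (hc : One T c)

lemma flags_line {v : Fin 3 → ℤ} {i : Fin 3} {σ : List (Full k)} (h : T.Line v i σ) :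
    (T.stAt v 0).flags.eq i = true ∧ (T.stAt v 0).flags.rel i =
      Tower.relTop Mid.hash Tower.fullOf (T.zs v σ.length (i + 1))
        (T.zs v (σ.length + 1) (i + 1)) := h.flags 0 (Nat.zero_le _)

include hc

lemma crossJ {v : Fin 3 → ℤ} {i : Fin 3} {σ : List (Full k)} (h1 : T.Line v i σ)
    (h2 : T.Line v (i + 1) σ) : (c v).J i = (c v).J (i + 1) := by
  obtain ⟨he, hr⟩ := flags_line h1
  have hn := (hc.cell v).nested i he (flags_line h2).1
  rw [hr, h2.1] at hn
  simpa [Tower.relTop, Rel.Holds] using hn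

lemma crossQ {v : Fin 3 → ℤ} {i : Fin 3} {π : List Bool} {t : Option (Fin k)}
    (h1 : T.PLine v i π) (h2 : T.PLine v (i + 1) π) : (c v).Q i t = (c v).Q (i + 1) t := by
  obtain ⟨he, hr⟩ := h1.flags 0 (Nat.zero_le _)
  have hn := (hc.cell v).nestedQ i t he (h2.flags 0 (Nat.zero_le _)).1
  rw [hr, h2.1] at hn
  simpa [Tower.relTop, Rel.Holds] using hn

lemma J_eq {v : Fin 3 → ℤ} {i : Fin 3} {σ : List (Full k)} (h : T.Line v i σ) :
    (c v).J i = slotVal T c σ := by
  obtain ⟨hh, hl⟩ := h
  let p : Fin 3 → ℤ := Function.update v (i + 2) (markAt T (i + 2) σ)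
  let q : Fin 3 → ℤ := Function.update (home T σ) i (v i)
  have hp2 : p (i + 2) = markAt T (i + 2) σ := Function.update_self ..
  have hp0 : p i = v i := Function.update_of_ne (fin3 i).1 ..
  have hp1 : p (i + 1) = v (i + 1) := Function.update_of_ne (fin3 i).2.1 ..
  have hq0 : q i = v i := Function.update_self ..
  have hq : ∀ j, j ≠ i → q j = markAt T j σ := fun j hj => Function.update_of_ne hj ..
  have hm := fun j : Fin 3 => dsym_markAt T j σ
  have e3 : i + 2 + 1 = i := (fin3 i).2.2.2.2.1
  have hH : ∀ j, T.Line (home T σ) j σ := fun j => by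
    refine ⟨?_, fun l hl' => ⟨?_, ?_⟩⟩ <;> rw [Tower.zs_eq]
    exacts [(hm j).1, (hm j).2 l hl', (hm (j + 1)).2 l hl']
  have hloop : (c (home T σ)).J i = slotVal T c σ := by
    have h01 := hc.crossJ (hH 0) (hH (0 + 1))
    have h12 := hc.crossJ (hH 1) (hH (1 + 1))
    fin_cases i
    exacts [rfl, h01.symm, (h01.trans h12).symm]
  have L1 : T.Line p i σ := by
    refine ⟨?_, fun l hl' => ⟨?_, ?_⟩⟩
    · rw [Tower.zs_eq, hp0, ← Tower.zs_eq]; exact hh
    · rw [Tower.zs_eq, hp0, ← Tower.zs_eq]; exact (hl l hl').1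
    · rw [Tower.zs_eq, hp1, ← Tower.zs_eq]; exact (hl l hl').2
  have L2 : T.Line p (i + 2) σ := by
    refine ⟨?_, fun l hl' => ⟨?_, ?_⟩⟩
    · rw [Tower.zs_eq, hp2]; exact (hm _).1
    · rw [Tower.zs_eq, hp2]; exact (hm _).2 l hl'
    · rw [e3, Tower.zs_eq, hp0, ← Tower.zs_eq]; exact (hl l hl').1
  have L3 : T.Line q (i + 2) σ := by
    refine ⟨?_, fun l hl' => ⟨?_, ?_⟩⟩
    · rw [Tower.zs_eq, hq _ (by simp [fin3 i])]; exact (hm _).1
    · rw [Tower.zs_eq, hq _ (by simp [fin3 i])]; exact (hm _).2 l hl'
    · rw [e3, Tower.zs_eq, hq0, ← Tower.zs_eq]; exact (hl l hl').1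
  have L4 : T.Line q (i + 1) σ := by
    refine ⟨?_, fun l hl' => ⟨?_, ?_⟩⟩
    · rw [Tower.zs_eq, hq _ (by simp [fin3 i])]; exact (hm _).1
    · rw [Tower.zs_eq, hq _ (by simp [fin3 i])]; exact (hm _).2 l hl'
    · rw [Tower.zs_eq, hq _ (by simp [fin3 i])]; exact (hm _).2 l hl'
  have h1 : (c p).J (i + 2) = (c p).J i := by
    have := hc.crossJ L2 (by rw [e3]; exact L1)
    rwa [e3] at this
  have h2 : (c q).J (i + 1) = (c q).J (i + 2) := by
    have e : i + 1 + 1 = i + 2 := (fin3 i).2.2.2.2.2.1
    have := hc.crossJ L4 (by rw [e]; exact L3)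
    rwa [e] at this
  have h3 : (c p).J (i + 2) = (c q).J (i + 2) := by
    refine (hc.slide ?_ ?_).1
    · rw [hp2, hq _ (by simp [fin3 i])]
    · rw [e3, hp0, hq0]
  have h4 : (c q).J (i + 1) = (c (home T σ)).J (i + 1) := by
    refine (hc.slide ?_ ?_).1
    · rw [hq _ (by simp [fin3 i])]; rfl
    · rw [hq _ (by simp [fin3 i])]; rfl
  rw [(hc.slide hp0.symm hp1.symm).1, ← h1, h3, ← h2, h4, ← hc.crossJ (hH i) (hH (i + 1)), hloop]

lemma Q_eq {v : Fin 3 → ℤ} {i : Fin 3} {π : List Bool} (t : Option (Fin k))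
    (h : T.PLine v i π) : (c v).Q i t = pslotVal T c t π := by
  obtain ⟨hh, hl⟩ := h
  let p : Fin 3 → ℤ := Function.update v (i + 2) (pmarkAt T (i + 2) π)
  let q : Fin 3 → ℤ := Function.update (phome T π) i (v i)
  have hp2 : p (i + 2) = pmarkAt T (i + 2) π := Function.update_self ..
  have hp0 : p i = v i := Function.update_of_ne (fin3 i).1 ..
  have hp1 : p (i + 1) = v (i + 1) := Function.update_of_ne (fin3 i).2.1 ..
  have hq0 : q i = v i := Function.update_self ..
  have hq : ∀ j, j ≠ i → q j = pmarkAt T j π := fun j hj => Function.update_of_ne hj ..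
  have hm := fun j : Fin 3 => dsym_pmarkAt T j π
  have e3 : i + 2 + 1 = i := (fin3 i).2.2.2.2.1
  have hH : ∀ j, T.PLine (phome T π) j π := fun j => by
    refine ⟨?_, fun l hl' => ⟨?_, ?_⟩⟩ <;> rw [Tower.zs_eq]
    exacts [(hm j).1, (hm j).2 l hl', (hm (j + 1)).2 l hl']
  have hloop : (c (phome T π)).Q i t = pslotVal T c t π := by
    have h01 := hc.crossQ (t := t) (hH 0) (hH (0 + 1))
    have h12 := hc.crossQ (t := t) (hH 1) (hH (1 + 1))
    fin_cases i
    exacts [rfl, h01.symm, (h01.trans h12).symm]
  have L1 : T.PLine p i π := by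
    refine ⟨?_, fun l hl' => ⟨?_, ?_⟩⟩
    · rw [Tower.zs_eq, hp0, ← Tower.zs_eq]; exact hh
    · rw [Tower.zs_eq, hp0, ← Tower.zs_eq]; exact (hl l hl').1
    · rw [Tower.zs_eq, hp1, ← Tower.zs_eq]; exact (hl l hl').2
  have L2 : T.PLine p (i + 2) π := by
    refine ⟨?_, fun l hl' => ⟨?_, ?_⟩⟩
    · rw [Tower.zs_eq, hp2]; exact (hm _).1
    · rw [Tower.zs_eq, hp2]; exact (hm _).2 l hl'
    · rw [e3, Tower.zs_eq, hp0, ← Tower.zs_eq]; exact (hl l hl').1
  have L3 : T.PLine q (i + 2) π := by
    refine ⟨?_, fun l hl' => ⟨?_, ?_⟩⟩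
    · rw [Tower.zs_eq, hq _ (by simp [fin3 i])]; exact (hm _).1
    · rw [Tower.zs_eq, hq _ (by simp [fin3 i])]; exact (hm _).2 l hl'
    · rw [e3, Tower.zs_eq, hq0, ← Tower.zs_eq]; exact (hl l hl').1
  have L4 : T.PLine q (i + 1) π := by
    refine ⟨?_, fun l hl' => ⟨?_, ?_⟩⟩
    · rw [Tower.zs_eq, hq _ (by simp [fin3 i])]; exact (hm _).1
    · rw [Tower.zs_eq, hq _ (by simp [fin3 i])]; exact (hm _).2 l hl'
    · rw [Tower.zs_eq, hq _ (by simp [fin3 i])]; exact (hm _).2 l hl'
  have h1 : (c p).Q (i + 2) t = (c p).Q i t := by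
    have := hc.crossQ (t := t) L2 (by rw [e3]; exact L1)
    rwa [e3] at this
  have h2 : (c q).Q (i + 1) t = (c q).Q (i + 2) t := by
    have e : i + 1 + 1 = i + 2 := (fin3 i).2.2.2.2.2.1
    have := hc.crossQ (t := t) L4 (by rw [e]; exact L3)
    rwa [e] at this
  have h3 : (c p).Q (i + 2) = (c q).Q (i + 2) := by
    refine (hc.slide ?_ ?_).2
    · rw [hp2, hq _ (by simp [fin3 i])]
    · rw [e3, hp0, hq0]
  have h4 : (c q).Q (i + 1) = (c (phome T π)).Q (i + 1) := by
    refine (hc.slide ?_ ?_).2
    · rw [hq _ (by simp [fin3 i])]; rfl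
    · rw [hq _ (by simp [fin3 i])]; rfl
  rw [(hc.slide hp0.symm hp1.symm).2, ← h1, h3, ← h2, h4, ← hc.crossQ (hH i) (hH (i + 1)), hloop]

lemma B_eq {v : Fin 3 → ℤ} {s : Option (Fin k)} {σ : List (Full k)}
    (h : T.Bridge v s σ) : (c v).B = slotVal T c σ := by
  let p : Fin 3 → ℤ := Function.update v 2 (markAt T 2 σ)
  have hp : ∀ l, T.zs p l 0 = T.zs v l 0 ∧ T.zs p l 1 = T.zs v l 1 := fun l => by
    simp [Tower.zs_eq, p]
  have hb : T.Bridge p s σ := ⟨by simpa [hp] using h.1, fun l hl => by simpa [hp] using h.2 l hl⟩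
  have hL : T.Line p 2 σ := by
    refine ⟨?_, fun l hl => ⟨?_, ?_⟩⟩
    · rw [Tower.zs_eq]; simpa [p] using (dsym_markAt T 2 σ).1
    · rw [Tower.zs_eq]; simpa [p] using (dsym_markAt T 2 σ).2 l hl
    · rw [show (2 : Fin 3) + 1 = 0 from rfl, (hp l).1]; exact (h.2 l hl).1
  obtain ⟨he, hr⟩ := flags_line hL
  have hn := (hc.cell p).nestedB he ⟨s, hb.flags 0 (Nat.zero_le _)⟩
  rw [hr, show (2 : Fin 3) + 1 = 0 from rfl, hb.1.1] at hn
  rw [hc.slideB (v := v) (w := p) (by simp [p]) (by simp [p]), ← hc.J_eq hL]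
  simpa [Tower.relTop, Rel.Holds, eq_comm] using hn

lemma slot_root : (slotVal T c []).isSome :=
  (hc.cell (home T [])).root 0 (by rw [Tower.zs_eq]; exact (dsym_markAt T 0 []).1)

lemma pslot_root (t : Option (Fin k)) : (pslotVal T c t []).isSome :=
  (hc.cell (phome T [])).rootQ 0 t (by rw [Tower.zs_eq]; exact (dsym_pmarkAt T 0 []).1)

lemma slot_next (σ : List (Full k)) (d : Full k) :
    slotVal T c σ = some d ↔ (slotVal T c (σ ++ [d])).isSome := by
  obtain ⟨x, -, hx⟩ := T.exists_symCoord 1
    (fun l => ((σ ++ [d])[l]?).elim .hash .full) (σ.length + 2) 0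
  obtain ⟨y, -, hy⟩ := T.exists_symCoord 2
    (fun l => ((σ ++ [d])[l]?).elim .hash .full) (σ.length + 2) 0
  let v : Fin 3 → ℤ := ![markAt T 0 σ, x, y]
  have hxl : ∀ l (h : l < (σ ++ [d]).length), T.dsym 1 x l = some (.full (σ ++ [d])[l]) :=
    fun l hl => by
      rw [hx l (by simp at hl; omega), List.getElem?_eq_getElem hl]
      rfl
  have h0 : T.Line v 0 σ := by
    refine ⟨?_, fun l hl => ⟨?_, ?_⟩⟩ <;> rw [Tower.zs_eq]
    · exact (dsym_markAt T 0 σ).1
    · exact (dsym_markAt T 0 σ).2 l hl
    · show T.dsym 1 x l = _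
      rw [hxl l (by simp; omega), List.getElem_append_left hl]
  have h1 : T.Line v 1 (σ ++ [d]) := by
    refine ⟨?_, fun l hl => ⟨?_, ?_⟩⟩ <;> rw [Tower.zs_eq]
    · show T.dsym 1 x _ = _
      rw [hx _ (by simp)]
      simp
    · exact hxl l hl
    · show T.dsym 2 y l = _
      rw [hy l (by simp at hl; omega), List.getElem?_eq_getElem hl]
      rfl
  obtain ⟨he, hr⟩ := flags_line h0
  have hn := (hc.cell v).nested 0 he (flags_line h1).1
  rw [hr, show (0 : Fin 3) + 1 = 1 from rfl] at hn
  have e1 := (h1.2 σ.length (by simp)).1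
  have e2 := h1.1
  rw [List.getElem_append_right le_rfl] at e1
  rw [List.length_append, List.length_singleton] at e2
  rw [e1, e2] at hn
  simpa [Tower.relTop, Tower.fullOf, Rel.Holds, hc.J_eq h0, hc.J_eq h1] using hn

lemma pslot_next (t : Option (Fin k)) (π : List Bool) (d : Bool) :
    pslotVal T c t π = some d ↔ (pslotVal T c t (π ++ [d])).isSome := by
  obtain ⟨x, -, hx⟩ := T.exists_symCoord 1
    (fun l => ((π ++ [d])[l]?).elim .phash .pad) (π.length + 2) 0
  obtain ⟨y, -, hy⟩ := T.exists_symCoord 2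
    (fun l => ((π ++ [d])[l]?).elim .phash .pad) (π.length + 2) 0
  let v : Fin 3 → ℤ := ![pmarkAt T 0 π, x, y]
  have hxl : ∀ l (h : l < (π ++ [d]).length), T.dsym 1 x l = some (.pad (π ++ [d])[l]) :=
    fun l hl => by
      rw [hx l (by simp at hl; omega), List.getElem?_eq_getElem hl]
      rfl
  have h0 : T.PLine v 0 π := by
    refine ⟨?_, fun l hl => ⟨?_, ?_⟩⟩ <;> rw [Tower.zs_eq]
    · exact (dsym_pmarkAt T 0 π).1
    · exact (dsym_pmarkAt T 0 π).2 l hl
    · show T.dsym 1 x l = _
      rw [hxl l (by simp; omega), List.getElem_append_left hl]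
  have h1 : T.PLine v 1 (π ++ [d]) := by
    refine ⟨?_, fun l hl => ⟨?_, ?_⟩⟩ <;> rw [Tower.zs_eq]
    · show T.dsym 1 x _ = _
      rw [hx _ (by simp)]
      simp
    · exact hxl l hl
    · show T.dsym 2 y l = _
      rw [hy l (by simp at hl; omega), List.getElem?_eq_getElem hl]
      rfl
  obtain ⟨he, hr⟩ := h0.flags 0 (Nat.zero_le _)
  have hn := (hc.cell v).nestedQ 0 t he (h1.flags 0 (Nat.zero_le _)).1
  rw [hr, show (0 : Fin 3) + 1 = 1 from rfl] at hn
  have e1 := (h1.2 π.length (by simp)).1
  have e2 := h1.1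
  rw [List.getElem_append_right le_rfl] at e1
  rw [List.length_append, List.length_singleton] at e2
  rw [e1, e2] at hn
  simpa [Tower.relTop, Tower.padOf, Rel.Holds, hc.Q_eq t h0, hc.Q_eq t h1] using hn

lemma slot_pad {σ : List (Full k)} {b : Full k} (h : slotVal T c σ = some b)
    (s : Option (Fin k)) : pslotVal T c s (σ.map fun d => d s) = some (b s) := by
  obtain ⟨y, -, hy⟩ := T.exists_symCoord 2
    (fun l => ((σ.map fun d => d s)[l]?).elim .phash .pad) (σ.length + 1) 0
  let v : Fin 3 → ℤ := ![markAt T 0 σ, pmarkAt T 1 (σ.map fun d => d s), y]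
  have hπ := dsym_pmarkAt T 1 (σ.map fun d => d s)
  have hB : T.Bridge v s σ := by
    refine ⟨⟨?_, ?_⟩, fun l hl => ⟨?_, ?_⟩⟩ <;> rw [Tower.zs_eq]
    · exact (dsym_markAt T 0 σ).1
    · have := hπ.1
      rwa [List.length_map] at this
    · exact (dsym_markAt T 0 σ).2 l hl
    · show T.dsym 1 (pmarkAt T 1 (σ.map fun d => d s)) l = _
      rw [hπ.2 l (by simpa using hl), List.getElem_map]
  have hP : T.PLine v 1 (σ.map fun d => d s) := by
    refine ⟨?_, fun l hl => ⟨?_, ?_⟩⟩ <;> rw [Tower.zs_eq]
    · exact hπ.1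
    · exact hπ.2 l hl
    · show T.dsym 2 y l = _
      rw [hy l (by simp at hl; omega), List.getElem?_eq_getElem hl]
      rfl
  rw [← hc.B_eq hB] at h
  rw [← hc.Q_eq s hP]
  exact (hc.cell v).proj s b (hB.flags 0 (Nat.zero_le _)) (hP.flags 0 (Nat.zero_le _)).1 h

lemma killed {L : ℕ} {w : List (Full k)} {v : Fin 3 → ℤ} (hw : w ≠ [])
    (hwL : w.length ≤ L) (hW : (T.stAt v L).word = some (padWord L w))
    (htop : w.length = L → T.zs v L 2 = some .reset)
    (hp : ∀ l < L, T.zs v l 2 = some .pass) (hL : T.Line v 0 w) : slotVal T c w = none := by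
  rw [← hc.J_eq hL]
  exact (hc.cell v).killJ
    (Tower.hit_of_word hw hwL hW htop hp hL.1 fun l hl => (hL.2 l hl).1)

/-- A word emitted at some level is no prefix of a path. -/
lemma killed_emit {L : ℕ} {w : List (Full k)} (hw : w ≠ []) (hwL : w.length ≤ L)
    (he : em L = some w) : slotVal T c w = none := by
  obtain ⟨y, -, hy⟩ := T.exists_symCoord 2
    (fun l => if l = L then .reset else .pass) (L + 1) 0
  let v : Fin 3 → ℤ := ![markAt T 0 w, markAt T 1 w, y]
  have hz : ∀ l ≤ L, T.zs v l 2 = some (if l = L then .reset else .pass) := fun l hl => by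
    rw [Tower.zs_eq]
    exact hy l (by omega)
  refine hc.killed (v := v) hw hwL ?_ (fun _ => by simpa using hz L le_rfl)
    (fun l hl => by simpa [hl.ne] using hz l hl.le) ⟨?_, fun l hl => ⟨?_, ?_⟩⟩
  · rw [Tower.stAt_step]
    simp [St.step, hz L le_rfl, wordStep, he]
  all_goals rw [Tower.zs_eq]
  exacts [(dsym_markAt T 0 w).1, (dsym_markAt T 0 w).2 l hl, (dsym_markAt T 1 w).2 l hl]

/-- The starred word of a tile is no prefix of a path. -/
lemma killed_starred {L : ℕ} {t : Fin 3 → ℤ} {w : List (Full k)} (hw : w ≠ [])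
    (hwL : w.length < L) (hW : (T.st L t).word = some (padWord L w)) :
    slotVal T c w = none := by
  have h : ∀ i : Fin 3, ∃ x, T.coord i x L = t i ∧ ∀ m < L, T.dsym i x m =
      some (if i = 2 then .pass else (w[m]?).elim .hash .full) :=
    fun i => T.exists_symCoord i _ L (t i)
  choose v hv hd using h
  have ht : T.tile v L = t := funext fun i => (T.tile_coord v L i).trans (hv i)
  refine hc.killed (v := v) hw hwL.le (by rw [Tower.stAt, ht]; exact hW) (fun h => absurd h hwL.ne)
    (fun l hl => by rw [Tower.zs_eq]; simpa using hd 2 l hl) ⟨?_, fun l hl => ⟨?_, ?_⟩⟩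
  all_goals rw [Tower.zs_eq]
  · simpa using hd 0 _ hwL
  · simpa [hl] using hd 0 l (by omega)
  · simpa [hl] using hd 1 l (by omega)

/-- The fields of a coset are those of a genuine path. -/
theorem exists_reads {K : Type} [Group K] {g : Fin k → K} (E : EffAction K g)
    (hem : ∀ w, NoExt E w → ∃ L, w.length ≤ L ∧ em L = some w) :
    ∃ y ∈ E.Y, Reads T c (path E y) := by
  obtain ⟨C, hC1, hC2⟩ := exists_seq (slotVal T c) hc.slot_root hc.slot_next
  choose P hP1 hP2 using fun t => exists_seq (pslotVal T c t) (hc.pslot_root t) (hc.pslot_next t)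
  have hpre : ∀ {α : Type} (f : ℕ → α) (n : ℕ), IsPreW (List.ofFn fun i : Fin n => f i) f :=
    fun f n i hi => by simp
  have hCP : ∀ t, P t = fun n => C n t := by
    intro t
    funext n
    induction n using Nat.strong_induction_on with
    | _ n ih =>
      have h1 := hc.slot_pad (hC1 _ (hpre C n)) t
      rw [hP1 t _ fun i hi => by
        simp only [List.length_map, List.length_ofFn] at hi
        simp [ih i hi]] at h1
      simpa using h1
  obtain ⟨y, hy, rfl⟩ : ∃ y ∈ E.Y, C = path E y := by
    refine exists_path E fun n it hit hm => ?_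
    let L := it.1.length + ∑ s : Fin k, (it.2.getD (s : ℕ) []).length
    let w := List.ofFn fun i : Fin L => C i
    have hno : NoExt E w := by
      intro y hy hyp
      refine (E.genuine _ _).1 ⟨hy, fun s => rfl⟩ n it hit ?_
      have h := (matchB_iff (hpre C L) it).2 ⟨by simp [L], fun s => by
        have := Finset.single_le_sum (f := fun s : Fin k => (it.2.getD (s : ℕ) []).length)
          (fun _ _ => Nat.zero_le _) (Finset.mem_univ s)
        simp only [List.length_ofFn, L]
        omega, hm⟩
      exact ((matchB_iff hyp it).1 h).2.2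
    obtain ⟨l, hl, he⟩ := hem w hno
    have := hc.killed_emit (hno.ne_nil) hl he
    rw [hC1 w (hpre C L)] at this
    simp at this
  refine ⟨y, hy, hc.J_eq, hc.B_eq, hc.Q_eq, fun h => hC1 _ h, fun {σ} h => ?_, fun {t π} h => ?_,
    fun {t π} h => ?_⟩
  · by_contra hn
    exact h (hC2 σ (Option.ne_none_iff_isSome.1 hn))
  · rw [hP1 t π (by rw [hCP]; exact h), hCP]
  · by_contra hn
    exact h (by have := hP2 t π (Option.ne_none_iff_isSome.1 hn); rwa [hCP] at this)

/-- The letters below a nonzero line are those of the path. -/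
lemma prefix_of_J {p : ℕ → Full k} (hr : Reads T c p) {v : Fin 3 → ℤ} {i : Fin 3}
    {τ : List (Full k)} (hJ : ((c v).J i).isSome)
    (hτ : ∀ l (h : l < τ.length),
      T.zs v l i = some (.full τ[l]) ∧ T.zs v l (i + 1) = some (.full τ[l])) : IsPreW τ p := by
  induction τ using List.reverseRecOn with
  | nil => exact fun l hl => absurd hl (Nat.not_lt_zero l)
  | append_singleton σ d _ =>
    let q : Fin 3 → ℤ := Function.update v (i + 2) (markAt T (i + 2) σ)
    have hq0 : q i = v i := Function.update_of_ne (fin3 i).1 ..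
    have hq1 : q (i + 1) = v (i + 1) := Function.update_of_ne (fin3 i).2.1 ..
    have hq2 : q (i + 2) = markAt T (i + 2) σ := Function.update_self ..
    have e3 : i + 2 + 1 = i := (fin3 i).2.2.2.2.1
    have hz : ∀ l, T.zs q l i = T.zs v l i := fun l => by rw [Tower.zs_eq, hq0, ← Tower.zs_eq]
    rw [(hc.slide hq0.symm hq1.symm).1] at hJ
    have he : (T.stAt q 0).flags.eq i = true := by
      by_contra hn
      rw [(hc.cell q).absentJ i (by simpa using hn)] at hJ
      simp at hJ
    have hL : T.Line q (i + 2) σ := by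
      refine ⟨?_, fun l hl => ⟨?_, ?_⟩⟩
      · rw [Tower.zs_eq, hq2]; exact (dsym_markAt T _ σ).1
      · rw [Tower.zs_eq, hq2]; exact (dsym_markAt T _ σ).2 l hl
      · rw [e3, hz]
        have h := (hτ l (by simp; omega)).1
        rwa [List.getElem_append_left hl] at h
    have hd : T.zs q σ.length i = some (.full d) := by
      have h := (hτ σ.length (by simp)).1
      rw [hz]
      simpa using h
    obtain ⟨he2, hrel⟩ := flags_line hL
    have hn := (hc.cell q).nested (i + 2) he2 (by rwa [e3])
    rw [hrel, e3, hd] at hn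
    have hv : slotVal T c σ = some d := by
      rw [← hr.line hL]
      revert hn
      simp only [Tower.relTop, Tower.fullOf, if_neg (show Mid.full d ≠ Mid.hash by simp)]
      split
      · exact fun hn => hn.2 hJ
      · exact fun hn => hn hJ
    have hσ : IsPreW σ p := by
      by_contra hn'
      rw [hr.slot_off hn'] at hv
      simp at hv
    rw [hr.slot hσ] at hv
    intro l hl
    by_cases hlt : l < σ.length
    · rw [List.getElem_append_left hlt]; exact hσ l hlt
    · have hl' : l = σ.length := by simp at hl; omega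
      subst hl'
      simpa using (Option.some.inj hv).symm

/-- The letters below a nonzero bridge are those of the path. -/
lemma prefix_of_B {p : ℕ → Full k} (hr : Reads T c p) {v : Fin 3 → ℤ} {τ : List (Full k)}
    (hB : ((c v).B).isSome)
    (hτ : ∀ l (h : l < τ.length), T.zs v l 0 = some (.full τ[l])) : IsPreW τ p := by
  induction τ using List.reverseRecOn with
  | nil => exact fun l hl => absurd hl (Nat.not_lt_zero l)
  | append_singleton σ d _ =>
    let q : Fin 3 → ℤ := Function.update v 2 (markAt T 2 σ)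
    have hz : ∀ l, T.zs q l 0 = T.zs v l 0 := fun l => by simp [Tower.zs_eq, q]
    rw [hc.slideB (v := v) (w := q) (by simp [q]) (by simp [q])] at hB
    have he : (T.stAt q 0).flags.HasB := by
      by_contra hn
      rw [(hc.cell q).absentB hn] at hB
      simp at hB
    have hL : T.Line q 2 σ := by
      refine ⟨?_, fun l hl => ⟨?_, ?_⟩⟩
      · rw [Tower.zs_eq]; simpa [q] using (dsym_markAt T 2 σ).1
      · rw [Tower.zs_eq]; simpa [q] using (dsym_markAt T 2 σ).2 l hl
      · rw [show (2 : Fin 3) + 1 = 0 from rfl, hz]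
        have h := hτ l (by simp; omega)
        rwa [List.getElem_append_left hl] at h
    have hd : T.zs q σ.length 0 = some (.full d) := by
      have h := hτ σ.length (by simp)
      rw [hz]
      simpa using h
    obtain ⟨he2, hrel⟩ := flags_line hL
    have hn := (hc.cell q).nestedB he2 he
    rw [hrel, show (2 : Fin 3) + 1 = 0 from rfl, hd] at hn
    have hv : slotVal T c σ = some d := by
      rw [← hr.line hL]
      revert hn
      simp only [Tower.relTop, Tower.fullOf, if_neg (show Mid.full d ≠ Mid.hash by simp)]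
      split
      · exact fun hn => hn.2 hB
      · exact fun hn => hn hB
    have hσ : IsPreW σ p := by
      by_contra hn'
      rw [hr.slot_off hn'] at hv
      simp at hv
    rw [hr.slot hσ] at hv
    intro l hl
    by_cases hlt : l < σ.length
    · rw [List.getElem_append_left hlt]; exact hσ l hlt
    · have hl' : l = σ.length := by simp at hl; omega
      subst hl'
      simpa using (Option.some.inj hv).symm

/-- The letters below a nonzero projection line are those of the track of the path. -/
lemma prefix_of_Q {p : ℕ → Full k} (hr : Reads T c p) {v : Fin 3 → ℤ} {i : Fin 3}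
    {t : Option (Fin k)} {τ : List Bool} (hQ : ((c v).Q i t).isSome)
    (hτ : ∀ l (h : l < τ.length),
      T.zs v l i = some (.pad τ[l]) ∧ T.zs v l (i + 1) = some (.pad τ[l])) :
    IsPreW τ (fun n => p n t) := by
  induction τ using List.reverseRecOn with
  | nil => exact fun l hl => absurd hl (Nat.not_lt_zero l)
  | append_singleton σ d _ =>
    let q : Fin 3 → ℤ := Function.update v (i + 2) (pmarkAt T (i + 2) σ)
    have hq0 : q i = v i := Function.update_of_ne (fin3 i).1 ..
    have hq1 : q (i + 1) = v (i + 1) := Function.update_of_ne (fin3 i).2.1 ..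
    have hq2 : q (i + 2) = pmarkAt T (i + 2) σ := Function.update_self ..
    have e3 : i + 2 + 1 = i := (fin3 i).2.2.2.2.1
    have hz : ∀ l, T.zs q l i = T.zs v l i := fun l => by rw [Tower.zs_eq, hq0, ← Tower.zs_eq]
    rw [(hc.slide hq0.symm hq1.symm).2] at hQ
    have he : (T.stAt q 0).flags.peq i = true := by
      by_contra hn
      rw [(hc.cell q).absentQ i t (by simpa using hn)] at hQ
      simp at hQ
    have hL : T.PLine q (i + 2) σ := by
      refine ⟨?_, fun l hl => ⟨?_, ?_⟩⟩
      · rw [Tower.zs_eq, hq2]; exact (dsym_pmarkAt T _ σ).1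
      · rw [Tower.zs_eq, hq2]; exact (dsym_pmarkAt T _ σ).2 l hl
      · rw [e3, hz]
        have h := (hτ l (by simp; omega)).1
        rwa [List.getElem_append_left hl] at h
    have hd : T.zs q σ.length i = some (.pad d) := by
      have h := (hτ σ.length (by simp)).1
      rw [hz]
      simpa using h
    obtain ⟨he2, hrel⟩ := hL.flags 0 (Nat.zero_le _)
    have hn := (hc.cell q).nestedQ (i + 2) t he2 (by rwa [e3])
    rw [hrel, e3, hd] at hn
    have hv : pslotVal T c t σ = some d := by
      rw [← hr.pline t hL]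
      revert hn
      simp only [Tower.relTop, Tower.padOf, if_neg (show Mid.pad d ≠ Mid.phash by simp)]
      split
      · exact fun hn => hn.2 hQ
      · exact fun hn => hn hQ
    have hσ : IsPreW σ (fun n => p n t) := by
      by_contra hn'
      rw [hr.pslot_off hn'] at hv
      simp at hv
    rw [hr.pslot hσ] at hv
    intro l hl
    by_cases hlt : l < σ.length
    · rw [List.getElem_append_left hlt]; exact hσ l hlt
    · have hl' : l = σ.length := by simp at hl; omega
      subst hl'
      simpa using (Option.some.inj hv).symm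

end One

end Vale.Agent.P193.W4.Coset
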