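import Vale.Agent.P193.W4.Interface

/-!
P193, W4 module B: the subshift over `K × ℤ⁵` made of the common layer, equal in all cosets, and
the coset fields.
-/

namespace Vale.Agent.P193.W4

open BH

namespace Coset

/-! ### Places in the window -/

/-- A corner of the unit cube. -/
abbrev Place : Type := (Fin 3 → Bool) × (Fin 2 → Bool)

/-- The lattice vector of a corner. -/
def pv (w : Place) : Lat :=
  Multiplicative.ofAdd
    ((fun i => if w.1 i then (1 : ℤ) else 0, fun i => if w.2 i then (1 : ℤ) else 0))

lemma pv_mem_cube (w : Place) : pv w ∈ cube := Finset.mem_image.2 ⟨w, Finset.mem_univ w, rfl⟩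

lemma cube_eq : cube = Finset.univ.image pv := rfl

lemma pv_zero : pv (fun _ => false, fun _ => false) = 1 := by
  rw [pv, ← ofAdd_zero]
  congr 1

/-- The unit vector of a counter axis. -/
def unitC (a : Fin 3) : Lat := Multiplicative.ofAdd ((Pi.single a 1, 0))

/-- The unit vector of a plane axis. -/
def unitP (b : Fin 2) : Lat := Multiplicative.ofAdd ((0, Pi.single b 1))

lemma pv_update_fst (w : Place) (a : Fin 3) (h : w.1 a = false) :
    pv (Function.update w.1 a true, w.2) = pv w * unitC a := by
  rw [pv, pv, unitC, ← ofAdd_add]
  congr 1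
  ext i
  · by_cases hi : i = a
    · subst hi; simp [h]
    · simp [hi]
  · simp

lemma pv_update_snd (w : Place) (b : Fin 2) (h : w.2 b = false) :
    pv (w.1, Function.update w.2 b true) = pv w * unitP b := by
  rw [pv, pv, unitP, ← ofAdd_add]
  congr 1
  ext i
  · simp
  · by_cases hi : i = b
    · subst hi; simp [h]
    · simp [hi]

end Coset

open Coset

variable {k : ℕ} {em : ℕ → Option (List (Full k))} {K : Type} [Group K]

/-- The cosets of a window: the one at hand, and its neighbours. -/
def coset (g : Fin k → K) : Option (Fin k) → K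
  | none => 1
  | some s => g s

open Classical in
/-- The window: the cube in the coset and in its neighbours. -/
noncomputable def cosetWin (g : Fin k → K) : Finset (K × Lat) :=
  (Finset.univ.image (coset g)) ×ˢ cube

open Classical in
lemma mem_cosetWin (g : Fin k → K) (o : Option (Fin k)) (w : Place) :
    (coset g o, pv w) ∈ cosetWin g :=
  Finset.mem_product.2 ⟨Finset.mem_image.2 ⟨o, Finset.mem_univ o, rfl⟩, pv_mem_cube w⟩

/-- A letter of the full layer: the common letter and the coset fields. -/
abbrev Letter (C : Common k em) : Type := C.S.A × JCell k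

/-- The rules inside a cell. -/
def LetterOK (C : Common k em) (a : Letter C) : Prop :=
  CellOK (fun i => sym (C.own a.1 i)) (C.flags a.1) (C.hit a.1) a.2

/-- What is asked of a window, read at the corners of its cubes. -/
structure WinOK (C : Common k em) (p : Option (Fin k) → Lat → Letter C) : Prop where
  common : ∀ o, C.S.allowed fun w : C.S.win => (p o w).1
  cell : ∀ o w, LetterOK C (p o (pv w))
  equal : ∀ s w, (p (some s) (pv w)).1 = (p none (pv w)).1
  edge : ∀ s w, EdgeOK s (p none (pv w)).2 (p (some s) (pv w)).2
  plane : ∀ o (w : Place) b, w.2 b = false →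
    (p o (pv w)).2 = (p o (pv (w.1, Function.update w.2 b true))).2
  line : ∀ o (w : Place) a, w.1 a = false →
    LineOK a (p o (pv w)).2 (p o (pv (Function.update w.1 a true, w.2))).2

variable (C : Common k em) (g : Fin k → K)

open Classical in
/-- The pattern on the window read coset by coset. -/
noncomputable def readWin (p : cosetWin g → Letter C) (o : Option (Fin k)) (v : Lat) : Letter C :=
  if h : (coset g o, v) ∈ cosetWin g then p ⟨_, h⟩
  else p ⟨_, mem_cosetWin g o (fun _ => false, fun _ => false)⟩

/-- The subshift of the full layer. -/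
noncomputable def cosetSFT : SFT (K × Lat) where
  A := Letter C
  topA := ⊥
  discA := @DiscreteTopology.mk _ ⊥ rfl
  win := cosetWin g
  allowed p := WinOK C (readWin C g p)

namespace Coset

variable {C g}

lemma readWin_window (x : K × Lat → Letter C) (u : K) (v : Lat) (o : Option (Fin k)) {w : Lat}
    (hw : w ∈ cube) :
    readWin C g ((cosetSFT C g).window x (u, v)) o w = x (u * coset g o, v * w) := by
  classical
  have h : (coset g o, w) ∈ cosetWin g :=
    Finset.mem_product.2 ⟨Finset.mem_image.2 ⟨o, Finset.mem_univ o, rfl⟩, hw⟩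
  show dite _ (fun h => x ((u, v) * (coset g o, w))) _ = _
  exact (dif_pos h).trans rfl

/-- A configuration is a point exactly when every coset is a point of the common layer with the
rules of the fields, and neighbouring cosets agree. -/
structure PointOK (C : Common k em) (g : Fin k → K) (x : K × Lat → Letter C) : Prop where
  common : ∀ u, (fun v => (x (u, v)).1) ∈ C.S.carrier
  cell : ∀ u v, LetterOK C (x (u, v))
  equal : ∀ u v s, (x (u * g s, v)).1 = (x (u, v)).1
  edge : ∀ u v s, EdgeOK s (x (u, v)).2 (x (u * g s, v)).2
  plane : ∀ u v b, (x (u, v)).2 = (x (u, v * unitP b)).2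
  line : ∀ u v a, LineOK a (x (u, v)).2 (x (u, v * unitC a)).2

lemma winOK_iff (x : K × Lat → Letter C) :
    x ∈ (cosetSFT C g).carrier ↔ PointOK C g x := by
  have hr : ∀ u v o (w : Place), readWin C g ((cosetSFT C g).window x (u, v)) o (pv w) =
      x (u * coset g o, v * pv w) := fun u v o w => readWin_window x u v o (pv_mem_cube w)
  let zero : Place := (fun _ => false, fun _ => false)
  constructor
  · intro h
    have hw : ∀ u v, WinOK C (readWin C g ((cosetSFT C g).window x (u, v))) := fun u v => h (u, v)
    refine ⟨fun u v => ?_, fun u v => ?_, fun u v s => ?_, fun u v s => ?_, fun u v b => ?_,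
      fun u v a => ?_⟩
    · have := (hw u v).common none
      convert this using 1
      funext w
      rw [readWin_window x u v none (C.win_eq ▸ w.2)]
      simp [coset, SFT.window]
    · have := (hw u v).cell none zero
      rw [hr, pv_zero, mul_one] at this
      simpa [coset] using this
    · have := (hw u v).equal s zero
      rw [hr, hr, pv_zero, mul_one] at this
      simpa [coset] using this
    · have := (hw u v).edge s zero
      rw [hr, hr, pv_zero, mul_one] at this
      simpa [coset] using this
    · have := (hw u v).plane none zero b rfl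
      rw [hr, hr, pv_update_snd zero b rfl, pv_zero, one_mul, mul_one] at this
      simpa [coset] using this
    · have := (hw u v).line none zero a rfl
      rw [hr, hr, pv_update_fst zero a rfl, pv_zero, one_mul, mul_one] at this
      simpa [coset] using this
  · intro h ⟨u, v⟩
    refine ⟨fun o => ?_, fun o w => ?_, fun s w => ?_, fun s w => ?_, fun o w b hb => ?_,
      fun o w a ha => ?_⟩
    · have := h.common (u * coset g o) v
      convert this using 1
      funext w
      rw [readWin_window x u v o (C.win_eq ▸ w.2)]
      rfl
    · rw [hr]; exact h.cell _ _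
    · rw [hr, hr]
      simp only [coset, mul_one]
      exact h.equal _ _ s
    · rw [hr, hr]
      simp only [coset, mul_one]
      exact h.edge _ _ s
    · rw [hr, hr, pv_update_snd w b hb, ← mul_assoc]
      exact h.plane _ _ b
    · rw [hr, hr, pv_update_fst w a ha, ← mul_assoc]
      exact h.line _ _ a

/-- In a point the common letters do not depend on the coset. -/
lemma PointOK.common_eq {x : K × Lat → Letter C} (h : PointOK C g x)
    (hg : Subgroup.closure (Set.range g) = ⊤) (u u' : K) (v : Lat) :
    (x (u, v)).1 = (x (u', v)).1 := by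
  let H : Subgroup K :=
    { carrier := {t | ∀ u, (x (u * t, v)).1 = (x (u, v)).1}
      one_mem' := fun u => by rw [mul_one]
      mul_mem' := fun {a b} ha hb u => by rw [← mul_assoc, hb (u * a), ha u]
      inv_mem' := fun {a} ha u => by
        have := ha (u * a⁻¹)
        rw [mul_assoc, inv_mul_cancel, mul_one] at this
        exact this.symm }
  have hle : Subgroup.closure (Set.range g) ≤ H :=
    (Subgroup.closure_le H).2 fun t ⟨s, hs⟩ u => hs ▸ h.equal u v s
  have hmem : u'⁻¹ * u ∈ H := hle (hg ▸ Subgroup.mem_top _)
  have := hmem u'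
  rwa [mul_inv_cancel_left] at this

/-- The common point of a point. -/
def commonPt (x : (cosetSFT C g).X) : C.S.X :=
  ⟨fun v => (x.1 (1, v)).1, ((winOK_iff x.1).1 x.2).common 1⟩

/-- A point from a common point and fields for each coset. -/
def mkPoint (c : C.S.X) (j : K → Lat → JCell k)
    (hcell : ∀ u v, LetterOK C (c.1 v, j u v))
    (hedge : ∀ u v s, EdgeOK s (j u v) (j (u * g s) v))
    (hplane : ∀ u v b, j u v = j u (v * unitP b))
    (hline : ∀ u v a, LineOK a (j u v) (j u (v * unitC a))) : (cosetSFT C g).X :=
  ⟨fun p => (c.1 p.2, j p.1 p.2), (winOK_iff _).2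
    ⟨fun _ => c.2, hcell, fun _ _ _ => rfl, hedge, hplane, hline⟩⟩

lemma act_val (γ : K × Lat) (x : (cosetSFT C g).X) (p : K × Lat) :
    ((cosetSFT C g).act γ x).1 p = x.1 (γ.1⁻¹ * p.1, γ.2⁻¹ * p.2) := rfl

lemma commonPt_eq (hg : Subgroup.closure (Set.range g) = ⊤) (x : (cosetSFT C g).X) (u : K)
    (v : Lat) : (x.1 (u, v)).1 = (commonPt x).1 v :=
  ((winOK_iff x.1).1 x.2).common_eq hg u 1 v

/-- The common point of a translate is the translate of the common point. -/
lemma commonPt_act (hg : Subgroup.closure (Set.range g) = ⊤) (γ : K × Lat)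
    (x : (cosetSFT C g).X) :
    commonPt ((cosetSFT C g).act γ x) = C.S.act γ.2 (commonPt x) :=
  Subtype.ext <| funext fun v => by
    show (x.1 (γ.1⁻¹ * 1, γ.2⁻¹ * v)).1 = (x.1 (1, γ.2⁻¹ * v)).1
    exact commonPt_eq hg x _ _ |>.trans rfl

end Coset

end Vale.Agent.P193.W4
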