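import Mathlib
import Vale.Agent.P193.W4.Coset.Sem
import Vale.Agent.P193.W4.Coset.Spec
import Vale.Agent.P193.W4.Code.Path

/-!
P193, module W4 B2 (`notes/P193_W4_frozen.md`, section 3): the semantics of the coset layer. One
coset over a common point reads the code of a point of the action; in a point of the full layer
these are the codes of one point; starred words begin no code.
-/

namespace Vale.Agent.P193.W4.Coset

open Vale.Agent.P193.Action

variable {K : Type} [Group K] {k : ℕ} {em : ℕ → Option (List (Full k))}

/-- Fields of one coset over a common point with the rules inside a coset. -/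
structure OneOK (C : Common k em) (c : C.S.X) (j : Lat → JCell k) : Prop where
  cell : ∀ v, LetterOK C (c.1 v, j v)
  plane : ∀ v b, j v = j (v * unitP b)
  line : ∀ v a, LineOK a (j v) (j (v * unitC a))

/-- The fields as functions of the counters. -/
def counter (j : Lat → JCell k) (v : Fin 3 → ℤ) : JCell k := j (Multiplicative.ofAdd (v, 0))

variable {C : Common k em}

namespace OneOK

variable {c : C.S.X} {j : Lat → JCell k} (h : OneOK C c j)

include h

lemma eq_counter (v : Lat) : j v = counter j (Multiplicative.toAdd v).1 := by
  obtain ⟨w, p⟩ := v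
  have hstep : ∀ (b : Fin 2) (q : Fin 2 → ℤ) (x : ℤ),
      j (Multiplicative.ofAdd (w, Function.update q b x)) =
        j (Multiplicative.ofAdd (w, Function.update q b (x + 1))) := by
    intro b q x
    rw [h.plane _ b]
    congr 1
    rw [unitP, ← ofAdd_add]
    congr 1
    ext i
    · simp
    · by_cases hi : i = b
      · subst hi; simp
      · simp [hi]
  have h1 := const_of_succ (hstep 1 p) (p 1) 0
  have h0 := const_of_succ (hstep 0 (Function.update p 1 0)) (p 0) 0
  rw [Function.update_eq_self] at h1
  rw [show Function.update (Function.update p 1 0) 0 (p 0) = Function.update p 1 0 by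
    funext i; fin_cases i <;> simp,
    show Function.update (Function.update p 1 0) 0 0 = (0 : Fin 2 → ℤ) by
      funext i; fin_cases i <;> simp] at h0
  exact h1.trans h0

lemma toOne : One (C.tower c) (counter j) := by
  refine ⟨fun v => ?_, fun v a => ?_⟩
  · have hv := h.cell (Multiplicative.ofAdd (v, 0))
    unfold LetterOK at hv
    rw [C.own_tower, C.flags_tower, C.hit_tower] at hv
    exact hv
  · have hl := h.line (Multiplicative.ofAdd (v, 0)) a
    have e : Multiplicative.ofAdd ((v, 0) : V) * unitC a =
        Multiplicative.ofAdd ((Function.update v a (v a + 1), 0) : V) := by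
      rw [unitC, ← ofAdd_add]
      congr 1
      ext i
      · by_cases hi : i = a
        · subst hi; simp
        · simp [hi]
      · simp
    rwa [e] at hl

/-- One coset reads the code of a point of the action: exact finite slots. -/
theorem exists_reads {g : Fin k → K} (E : EffAction K g)
    (hem : ∀ w, NoExt E w → ∃ L, w.length ≤ L ∧ em L = some w) :
    ∃ y ∈ E.Y, Reads (C.tower c) (counter j) (code E y) := by
  obtain ⟨y, hy, hr⟩ := h.toOne.exists_reads E hem
  exact ⟨y, hy, by rw [code_eq_path E hy]; exact hr⟩

end OneOK

variable {g : Fin k → K}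

/-- Each coset of a point satisfies the rules inside a coset. -/
lemma PointOK.one {x : K × Lat → Letter C} (h : PointOK C g x)
    (hgen : Subgroup.closure (Set.range g) = ⊤) (c : C.S.X)
    (hc : ∀ v, c.1 v = (x (1, v)).1) (u : K) : OneOK C c (fun v => (x (u, v)).2) :=
  ⟨fun v => by rw [hc, h.common_eq hgen 1 u]; exact h.cell u v, h.plane u, h.line u⟩

/-- Tracks of neighbouring cosets: the coset read from `u * g s` is the translate of that at `u`. -/
lemma reads_edge (E : EffAction K g) {T : Tower k em} {c c' : (Fin 3 → ℤ) → JCell k}
    {y y' : ℕ → Bool} (hy' : y' ∈ E.Y) (hr : Reads T c (code E y)) (hr' : Reads T c' (code E y'))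
    (s : Fin k) (he : ∀ v, EdgeOK s (c v) (c' v)) : y' = E.act (g s)⁻¹ y := by
  funext n
  have hp : IsPreW (List.ofFn fun i : Fin n => code E y i (some s))
      (fun i => code E y i (some s)) := fun i hi => by simp
  have h1 := hr.pslot hp
  rw [List.length_ofFn] at h1
  have h2 : pslotVal T c' none (List.ofFn fun i : Fin n => code E y i (some s)) =
      some (code E y n (some s)) := by
    rw [← h1]
    exact (he (phome T _) 0).symm
  have h3 : IsPreW (List.ofFn fun i : Fin n => code E y i (some s))
      (fun i => code E y' i none) := by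
    by_contra hn
    rw [hr'.pslot_off hn] at h2
    simp at h2
  rw [hr'.pslot h3, List.length_ofFn] at h2
  rw [← code_none E hy' n]
  exact Option.some.inj h2

/-- A point of the full layer reads the codes of one point of the action. -/
theorem exists_point (E : EffAction K g) (hgen : Subgroup.closure (Set.range g) = ⊤)
    (hem : ∀ w, NoExt E w → ∃ L, w.length ≤ L ∧ em L = some w) (x : (cosetSFT C g).X) :
    ∃ A ∈ E.Y, ∀ u,
      Reads (C.tower (commonPt x)) (counter fun v => (x.1 (u, v)).2) (codeAt E A u) := by
  have hx := (winOK_iff x.1).1 x.2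
  choose A hA hr using fun u => (hx.one hgen (commonPt x) (fun v => rfl) u).exists_reads E hem
  have hedge : ∀ u s, A (u * g s) = E.act (g s)⁻¹ (A u) := fun u s =>
    reads_edge E (hA _) (hr u) (hr _) s fun v => hx.edge u (Multiplicative.ofAdd (v, 0)) s
  have hact : ∀ h u, A (u * h) = E.act h⁻¹ (A u) := by
    intro h
    have hmem : h ∈ Subgroup.closure (Set.range g) := by rw [hgen]; trivial
    induction hmem using Subgroup.closure_induction with
    | mem z hz => obtain ⟨s, rfl⟩ := hz; exact fun u => hedge u s
    | one => intro u; rw [mul_one, inv_one, E.one _ (hA u)]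
    | mul z w _ _ ihz ihw =>
      intro u
      rw [← mul_assoc, ihw, ihz, mul_inv_rev, E.mul _ _ _ (hA u)]
    | inv z _ ihz =>
      intro u
      have h1 := ihz (u * z⁻¹)
      rw [inv_mul_cancel_right] at h1
      rw [h1, ← E.mul _ _ _ (hA _), inv_inv, mul_inv_cancel, E.one _ (hA _)]
  refine ⟨A 1, hA 1, fun u => ?_⟩
  have e : E.act u⁻¹ (A 1) = A u := by rw [← hact, one_mul]
  rw [codeAt, e]
  exact hr u

/-- The starred words of a point begin no code. -/
theorem not_genuine_starred (E : EffAction K g) (hgen : Subgroup.closure (Set.range g) = ⊤)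
    (hem : ∀ w, NoExt E w → ∃ L, w.length ≤ L ∧ em L = some w) (x : (cosetSFT C g).X) {L : ℕ}
    {t : Fin 3 → ℤ} {w : List (Full k)} (hw : w ≠ []) (hwL : w.length < L)
    (hW : ((C.tower (commonPt x)).st L t).word = some (padWord L w)) : ¬Genuine E w := by
  intro hg
  obtain ⟨A, hA, hr⟩ := exists_point E hgen hem x
  obtain ⟨u, hu⟩ := exists_coset E hg hA
  have hp : IsPreW w (codeAt E A u) := fun i hi => (hu i hi).symm
  have h1 := ((winOK_iff x.1).1 x.2 |>.one hgen (commonPt x) (fun v => rfl) u).toOne.killed_starred
    hw hwL hW
  rw [(hr u).slot hp] at h1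
  simp at h1

end Vale.Agent.P193.W4.Coset
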