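import Mathlib
import Vale.Agent.P193.W4.Coset.Semantics

/-!
P193, module W4 B3 (`notes/P193_W4_frozen.md`, section 5): the full layer is free; points over
common points with dead digits arbitrarily high occur in every point; with the existence of such
points and the realisation of limit states this gives minimality.
-/

namespace Vale.Agent.P193.W4.Coset

open Vale.Agent.P193.Action

variable {K : Type} [Group K] {k : ℕ} {em : ℕ → Option (List (Full k))} {g : Fin k → K}

lemma Reads.unique {T : Tower k em} {c : (Fin 3 → ℤ) → JCell k} {p q : ℕ → Full k}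
    (hp : Reads T c p) (hq : Reads T c q) : p = q := by
  funext n
  have h1 := hp.slot (σ := List.ofFn fun i : Fin n => p i) fun i hi => by simp
  by_cases h : IsPreW (List.ofFn fun i : Fin n => p i) q
  · rw [hq.slot h, List.length_ofFn] at h1
    exact (Option.some.inj h1).symm
  · rw [hq.slot_off h] at h1
    simp at h1

/-- A finite part of the code of a coset depends on finitely many bits of the point. -/
lemma codeAt_dep (E : EffAction K g) (u : K) (n : ℕ) :
    ∃ N, ∀ y y' : ℕ → Bool, (∀ j < N, y j = y' j) → ∀ i < n, codeAt E y u i = codeAt E y' u i := by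
  obtain ⟨N, hN⟩ := code_dep E n
  choose f hf using E.cont u⁻¹
  refine ⟨(Finset.range N).sup f + 1, fun y y' h i hi => hN _ _ (fun j hj => ?_) i hi⟩
  rw [hf, hf]
  exact h _ (Nat.lt_succ_of_le (Finset.le_sup (f := f) (Finset.mem_range.2 hj)))

/-- The fields at a cell with dead digits below `M` depend only on the cell's flags, its digits
below `M` and the code below `M`. -/
lemma Reads.field_eq {T T' : Tower k em} {c c' : (Fin 3 → ℤ) → JCell k} {p p' : ℕ → Full k}
    (hc : One T c) (hc' : One T' c') (hr : Reads T c p) (hr' : Reads T' c' p')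
    {v v' : Fin 3 → ℤ} {M : ℕ} (hdead : ∀ i, ∃ m, m < M ∧ T.zs v m i = none)
    (hz : ∀ m < M, T.zs v m = T'.zs v' m)
    (hf : (T.stAt v 0).flags = (T'.stAt v' 0).flags)
    (hp : ∀ m < M, p m = p' m) : c v = c' v' := by
  have hpre : ∀ {α : Type} (f : Full k → α) {σ : List α}, σ.length ≤ M →
      (IsPreW σ (fun i => f (p i)) ↔ IsPreW σ fun i => f (p' i)) := fun f σ hσ =>
    forall_congr' fun i => forall_congr' fun hi => by simp only [hp i (by omega)]
  have hval : ∀ σ : List (Full k), σ.length < M → slotVal T c σ = slotVal T' c' σ := fun σ hσ => by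
    by_cases h : IsPreW σ p
    · rw [hr.slot h, hr'.slot ((hpre id hσ.le).1 h), hp _ hσ]
    · rw [hr.slot_off h, hr'.slot_off fun h' => h ((hpre id hσ.le).2 h')]
  obtain ⟨J, B, Q⟩ : PLift ((c v).J = (c' v').J) × PLift ((c v).B = (c' v').B) ×
      PLift ((c v).Q = (c' v').Q) := by
    refine ⟨⟨funext fun i => ?_⟩, ⟨?_⟩, ⟨funext fun i => funext fun t => ?_⟩⟩
    · rcases he : (T.stAt v 0).flags.eq i with _ | _
      · rw [(hc.cell v).absentJ i he, (hc'.cell v').absentJ i (hf ▸ he)]
      · obtain ⟨m, hm, hn⟩ := hdead i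
        obtain ⟨σ, hL, hσ⟩ := Tower.exists_line he hn
        have hL' : T'.Line v' i σ := by
          refine ⟨?_, fun l hl => ?_⟩
          · rw [← hz σ.length (by omega)]; exact hL.1
          · rw [← hz l (by omega)]; exact hL.2 l hl
        rw [hr.line hL, hr'.line hL', hval σ (by omega)]
    · by_cases he : (T.stAt v 0).flags.HasB
      · obtain ⟨s, hs⟩ := he
        obtain ⟨m, hm, hn⟩ := hdead 0
        obtain ⟨σ, hL, hσ⟩ := Tower.exists_bridge hs hn
        have hL' : T'.Bridge v' s σ := by
          refine ⟨?_, fun l hl => ?_⟩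
          · rw [← hz σ.length (by omega)]; exact hL.1
          · rw [← hz l (by omega)]; exact hL.2 l hl
        rw [hr.bridge hL, hr'.bridge hL', hval σ (by omega)]
      · rw [(hc.cell v).absentB he, (hc'.cell v').absentB (hf ▸ he)]
    · rcases he : (T.stAt v 0).flags.peq i with _ | _
      · rw [(hc.cell v).absentQ i t he, (hc'.cell v').absentQ i t (hf ▸ he)]
      · obtain ⟨m, hm, hn⟩ := hdead i
        obtain ⟨π, hL, hπ⟩ := Tower.exists_pline he hn
        have hL' : T'.PLine v' i π := by
          refine ⟨?_, fun l hl => ?_⟩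
          · rw [← hz π.length (by omega)]; exact hL.1
          · rw [← hz l (by omega)]; exact hL.2 l hl
        rw [hr.pline t hL, hr'.pline t hL']
        by_cases h : IsPreW π (fun i => p i t)
        · rw [hr.pslot h, hr'.pslot ((hpre (fun d => d t) (by omega)).1 h), hp _ (by omega)]
        · rw [hr.pslot_off h, hr'.pslot_off fun h' => h ((hpre (fun d => d t) (by omega)).2 h')]
  cases hcv : c v
  cases hcv' : c' v'
  rw [hcv, hcv'] at J B Q
  simp only at J B Q
  simp [J.down, B.down, Q.down]

variable {C : Common k em}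

/-- The full layer is free. -/
theorem free (E : EffAction K g) (hgen : Subgroup.closure (Set.range g) = ⊤)
    (hem : ∀ w, NoExt E w → ∃ L, w.length ≤ L ∧ em L = some w) (x : (cosetSFT C g).X)
    (γ : K × Lat) (h : (cosetSFT C g).act γ x = x) : γ = 1 := by
  have h2 : γ.2 = 1 := C.free (commonPt x) γ.2 (by rw [← commonPt_act hgen, h])
  obtain ⟨A, hA, hr⟩ := exists_point E hgen hem x
  have hfield : (counter fun v => (x.1 (γ.1⁻¹, v)).2) = counter fun v => (x.1 (1, v)).2 := by
    funext v
    conv_rhs => rw [← h]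
    simp [counter, act_val, h2]
  have h1 := hr γ.1⁻¹
  rw [hfield] at h1
  have h3 := h1.unique (hr 1)
  by_contra hne
  have hγ : γ.1 ≠ 1 := fun e => hne (Prod.ext e h2)
  refine E.free A hA γ.1 hγ (funext fun i => ?_)
  have h4 := congrFun (congrFun h3 i) none
  rwa [codeAt, codeAt, code_none E (E.mem _ _ hA), code_none E (E.mem _ _ hA), inv_inv, inv_one,
    E.one _ hA] at h4

/-- A point over a common point with dead digits arbitrarily high occurs in every point. -/
theorem recur_reset (E : EffAction K g) (hgen : Subgroup.closure (Set.range g) = ⊤)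
    (hem : ∀ w, NoExt E w → ∃ L, w.length ≤ L ∧ em L = some w) (z : (cosetSFT C g).X)
    (hz : (C.tower (commonPt z)).Reset) (x : (cosetSFT C g).X) (U : Finset (K × Lat)) :
    ∃ γ : K × Lat, (cosetSFT C g).AgreeOn U ((cosetSFT C g).act γ x) z := by
  classical
  obtain ⟨A, hA, hr⟩ := exists_point E hgen hem x
  obtain ⟨A', hA', hr'⟩ := exists_point E hgen hem z
  have hlev : ∀ p : K × Lat, ∃ M, ∀ i, ∃ m, m < M ∧
      (C.tower (commonPt z)).zs (Multiplicative.toAdd p.2).1 m i = none := fun p => by
    have hcl : (C.tower (commonPt z)).Closed (Multiplicative.toAdd p.2).1 := fun i => by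
      obtain ⟨n, -, hn⟩ := hz (Multiplicative.toAdd p.2).1 i 0
      exact ⟨n, hn⟩
    choose f hf using hcl
    exact ⟨f 0 + f 1 + f 2 + 1, fun i => ⟨f i, by fin_cases i <;> simp <;> omega, hf i⟩⟩
  choose lev hlev using hlev
  let M := U.sup lev
  choose dep hdep using fun u => codeAt_dep E u M
  obtain ⟨h, hh⟩ := E.minimal A hA A' hA' (U.sup fun p => dep p.1)
  obtain ⟨δ, hδ, hdig⟩ := C.recur (commonPt z) (U.image Prod.snd) hz M (commonPt x)
  refine ⟨(h, δ), fun p hp => ?_⟩
  obtain ⟨u, v⟩ := p
  have hxx := (winOK_iff x.1).1 x.2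
  have hzz := (winOK_iff z.1).1 z.2
  have hv : v ∈ U.image Prod.snd := Finset.mem_image.2 ⟨_, hp, rfl⟩
  have hcom : (x.1 (h⁻¹ * u, δ⁻¹ * v)).1 = (z.1 (u, v)).1 := by
    rw [commonPt_eq hgen x, commonPt_eq hgen z]
    exact hδ v hv
  rw [act_val]
  refine Prod.ext hcom ?_
  have e1 := (hxx.one hgen (commonPt x) (fun v => rfl) (h⁻¹ * u)).eq_counter (δ⁻¹ * v)
  have e2 := (hzz.one hgen (commonPt z) (fun v => rfl) u).eq_counter v
  simp only at e1 e2 ⊢
  rw [e1, e2]
  symm
  refine (hr' u).field_eq (hzz.one hgen (commonPt z) (fun v => rfl) u).toOne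
    (hxx.one hgen (commonPt x) (fun v => rfl) (h⁻¹ * u)).toOne (hr (h⁻¹ * u))
    (M := M) (fun i => ?_) (fun m hm => funext fun i => congrArg sym ?_) ?_ fun m hm => ?_
  · obtain ⟨m, hm, hn⟩ := hlev (u, v) i
    exact ⟨m, hm.trans_le (Finset.le_sup (f := lev) hp), hn⟩
  · have e := (C.tower_act (commonPt x) (Multiplicative.toAdd δ) (Multiplicative.toAdd v) m).1
    rw [ofAdd_toAdd] at e
    rw [← hdig v hv m hm, e]
    congr
    rw [toAdd_mul, toAdd_inv, neg_add_eq_sub]
  · have e3 := C.flags_tower (commonPt z) (Multiplicative.toAdd v)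
    have e4 := C.flags_tower (commonPt x) (Multiplicative.toAdd (δ⁻¹ * v))
    rw [ofAdd_toAdd, ← commonPt_eq hgen z u] at e3
    rw [ofAdd_toAdd, ← commonPt_eq hgen x (h⁻¹ * u), hcom, e3] at e4
    exact e4
  · have e : E.act (h⁻¹ * u)⁻¹ A = E.act u⁻¹ (E.act h A) := by
      rw [mul_inv_rev, inv_inv, E.mul _ _ _ hA]
    rw [codeAt, codeAt, e]
    exact (hdep u _ _ (fun j hj => hh j (hj.trans_le (Finset.le_sup (f := fun p : K × Lat => dep p.1)
      hp))) m hm).symm

/-- Over every common point with dead digits arbitrarily high and every point of the action there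
is a point of the full layer. -/
def ExistPoint (C : Common k em) (E : EffAction K g) : Prop :=
  ∀ c : C.S.X, (C.tower c).Reset → ∀ A ∈ E.Y, ∃ z : (cosetSFT C g).X, commonPt z = c ∧
    ∀ u, Reads (C.tower c) (counter fun v => (z.1 (u, v)).2) (codeAt E A u)

/-- Near any finite set a point looks like every point over some common point with dead digits
arbitrarily high that reads some point of the action. -/
def Realisable (C : Common k em) (E : EffAction K g) : Prop :=
  ∀ (x : (cosetSFT C g).X) (U : Finset (K × Lat)),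
    ∃ c : C.S.X, (C.tower c).Reset ∧ ∃ A ∈ E.Y, ∀ z : (cosetSFT C g).X, commonPt z = c →
      (∀ u, Reads (C.tower c) (counter fun v => (z.1 (u, v)).2) (codeAt E A u)) →
      (cosetSFT C g).AgreeOn U x z

/-- Minimality and freeness of the full layer. -/
theorem minimalFree_of (E : EffAction K g) (hgen : Subgroup.closure (Set.range g) = ⊤)
    (hem : ∀ w, NoExt E w → ∃ L, w.length ≤ L ∧ em L = some w)
    (hreset : ∃ c : C.S.X, (C.tower c).Reset) (hex : ExistPoint C E) (hre : Realisable C E) :
    (cosetSFT C g).MinimalFree := by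
  refine ⟨?_, fun x y U => ?_, free E hgen hem⟩
  · obtain ⟨c, hc⟩ := hreset
    obtain ⟨A, hA⟩ := E.nonempty
    obtain ⟨z, -⟩ := hex c hc A hA
    exact ⟨z⟩
  obtain ⟨c, hc, A, hA, hag⟩ := hre y U
  obtain ⟨z, hzc, hzr⟩ := hex c hc A hA
  obtain ⟨γ, hγ⟩ := recur_reset E hgen hem z (hzc.symm ▸ hc) x U
  exact ⟨γ, fun p hp => (hγ p hp).trans (hag z hzc hzr p hp).symm⟩

end Vale.Agent.P193.W4.Coset
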