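import Vale.Agent.P193.W4.Coset.Exist
import Vale.Agent.P193.W4.Coset.MinimalFree
import Vale.Agent.P193.W4.Emission
import Vale.Agent.P193.W4.Tower.Arith
import Vale.Agent.P193.W4.Rigid.Compact

/-!
P193, module W4 B (`notes/P193_W4_frozen.md`, section 3): over a common point with dead digits
arbitrarily high every point of the action gives a point of the full layer, which reads its codes;
the full layer is not empty.
-/

namespace Vale.Agent.P193.W4.Coset

open BH Vale.Agent.P193.Action

variable {K : Type} [Group K] {k : ℕ} {g : Fin k → K} {em : ℕ → Option (List (Full k))}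

/-! ### Starred words below a dead digit -/

lemma padWord_inj {L m : ℕ} {u w : List (Full k)} (hLm : L ≤ m) (hw : w.length < L)
    (h : (padWord m u).take L = padWord L w) : u = w := by
  have key : ∀ j, j < L → u[j]? = w[j]? := by
    intro j hj
    have e := congrArg (fun l : Word k => l[j]?) h
    have ev : ∀ (n : ℕ) (v : List (Full k)), j < n → (padWord n v)[j]? = some (v[j]?) := by
      intro n v hjn
      rw [padWord, List.getElem?_take, if_pos hjn]
      rcases lt_or_ge j v.length with hv | hv
      · simp [List.getElem?_append_left, hv]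
      · rw [List.getElem?_append_right (by simpa using hv), List.getElem?_replicate,
          if_pos (by simp; omega), List.getElem?_eq_none hv]
    simp only [List.getElem?_take, if_pos hj] at e
    rw [ev m u (by omega), ev L w hj] at e
    exact Option.some.inj e
  have hlen : u.length ≤ w.length := by
    by_contra hlt
    have e := key w.length hw
    rw [List.getElem?_eq_none le_rfl, List.getElem?_eq_getElem (by omega)] at e
    exact Option.some_ne_none _ e
  exact List.ext_getElem? fun j => by
    rcases lt_or_ge j L with hj | hj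
    · exact key j hj
    · rw [List.getElem?_eq_none (by omega), List.getElem?_eq_none (by omega)]

/-- A starred word below a dead digit on axis `2` was emitted. -/
lemma word_origin {T : Tower k em} {v : Fin 3 → ℤ} {L P : ℕ} {w : List (Full k)}
    (hw : w.length < L) (hP : T.zs v P 2 = none) (hLP : L ≤ P)
    (hW : (T.stAt v L).word = some (padWord L w)) : ∃ M, em M = some w := by
  have key : ∀ d m, m + d = P → L ≤ m → ∀ W, (T.stAt v m).word = some W →
      W.take L = padWord L w → ∃ M, em M = some w := by
    intro d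
    induction d with
    | zero =>
      intro m hm _ W h _
      rw [show m = P by omega, T.stAt_step] at h
      simp [St.step, hP, wordStep] at h
    | succ d ih =>
      intro m hm hLm W h htake
      rw [T.stAt_step] at h
      simp only [St.step] at h
      rcases hz : T.zs v m 2 with _ | z
      · simp [hz, wordStep] at h
      cases z with
      | reset =>
        rw [hz] at h
        obtain ⟨u, hu, rfl⟩ := Option.map_eq_some_iff.1
          (show (em m).map (padWord m) = some W from h)
        exact ⟨m, by rw [hu, padWord_inj hLm hw htake]⟩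
      | pass =>
        rw [hz] at h
        obtain ⟨W', hW', rfl⟩ := Option.map_eq_some_iff.1
          (show Option.map (List.take m) (T.stAt v (m + 1)).word = some W from h)
        refine ih (m + 1) (by omega) (by omega) W' hW' ?_
        rwa [List.take_take, min_eq_left hLm] at htake
      | _ => simp [hz, wordStep] at h
  exact key (P - L) L (by omega) le_rfl _ hW (by rw [padWord, List.take_take, min_self])

variable {E : EffAction K g}

/-- Starred words of a marker are bad below dead digits on the axes `0` and `2`. -/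
lemma starredBad_of_dead (hem : EmitsBad E em) {T : Tower k em} {v : Fin 3 → ℤ} {P : ℕ}
    (h0 : T.zs v P 0 = none) (h2 : T.zs v P 2 = none) : StarredBad E T v := by
  intro w hw hh hl hW
  have hlt : w.length < P := by
    rcases lt_trichotomy w.length P with h | h | h
    · exact h
    · rw [h] at hh; simp [h0] at hh
    · obtain ⟨a, ha⟩ := hl P h
      simp [h0] at ha
  obtain ⟨M, hM⟩ := word_origin (Nat.lt_succ_self _) h2 hlt hW
  exact hem.noExt _ _ hM

/-- Starred words are bad in a tower with dead digits arbitrarily high. -/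
lemma starredBad_of_reset (hem : EmitsBad E em) {T : Tower k em} (hT : T.Reset) (v : Fin 3 → ℤ) :
    StarredBad E T v := by
  intro w hw hh hl hW
  obtain ⟨P, hP, h2⟩ := hT v 2 (w.length + 1)
  obtain ⟨M, hM⟩ := word_origin (Nat.lt_succ_self _) (show T.zs v P 2 = none from h2) hP hW
  exact hem.noExt _ _ hM

/-! ### Paths of cosets -/

lemma path_edge {y : ℕ → Bool} (hy : y ∈ E.Y) (u : K) (s : Fin k) (n : ℕ) :
    path E (E.act u⁻¹ y) n (some s) = path E (E.act (u * g s)⁻¹ y) n none := by
  show E.act (g s)⁻¹ (E.act u⁻¹ y) n = E.act (u * g s)⁻¹ y n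
  rw [← E.mul _ _ y hy, mul_inv_rev]

lemma exists_bit (u : K) (n : ℕ) (s : Option (Fin k)) :
    ∃ j, ∀ y ∈ E.Y, path E (E.act u⁻¹ y) n s = y j := by
  cases s with
  | none =>
    obtain ⟨j, hj⟩ := E.cont u⁻¹ n
    exact ⟨j, fun y _ => hj y⟩
  | some s =>
    obtain ⟨j, hj⟩ := E.cont (u * g s)⁻¹ n
    exact ⟨j, fun y hy => (path_edge hy u s n).trans (hj y)⟩

/-- The code of a coset is its path. -/
lemma codeAt_eq {E : EffAction K g} {y : ℕ → Bool} (hy : y ∈ E.Y) (u : K) :
    codeAt E y u = path E (E.act u⁻¹ y) :=
  code_eq_path E (E.mem u⁻¹ y hy)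

/-- The fields given by a path, where they obey the rules, read this path. -/
theorem reads_fieldsOf {T : Tower k em} {p : ℕ → Full k} (h : One T (fieldsOf T p)) :
    Reads T (fieldsOf T p) p where
  line hL := h.J_eq hL
  bridge hB := h.B_eq hB
  pline t hP := h.Q_eq t hP
  slot {σ} hp := by
    have hL : T.Line (home T σ) 0 σ := by
      refine ⟨?_, fun l hl => ⟨?_, ?_⟩⟩ <;> rw [Tower.zs_eq]
      exacts [(dsym_markAt T 0 σ).1, (dsym_markAt T 0 σ).2 l hl, (dsym_markAt T 1 σ).2 l hl]
    show (if _ then _ else _) = _
    rw [if_pos (hL.flags 0 (Nat.zero_le _)).1]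
    exact lval_of_on fullH ⟨hL.1, fun m hm => by rw [← hp m hm]; exact (hL.2 m hm).1⟩
  slot_off {σ} hp := by
    show (if _ then _ else _) = _
    split
    · refine lval_none fun n hn => hp fun m hm => ?_
      have hh : T.zs (home T σ) σ.length 0 = some .hash := by
        rw [Tower.zs_eq]; exact (dsym_markAt T 0 σ).1
      have hl : ∀ l (hl : l < σ.length), T.zs (home T σ) l 0 = some (.full σ[l]) := fun l hl => by
        rw [Tower.zs_eq]; exact (dsym_markAt T 0 σ).2 l hl
      have e : n = σ.length := On.unique fullH hn (c' := fun m => σ.getD m fun _ => false)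
        ⟨hh, fun m hm => by
          simpa [List.getD_eq_getElem?_getD, List.getElem?_eq_getElem hm] using hl m hm⟩
      have e' : T.zs (home T σ) m 0 = some (.full (p m)) := hn.2 m (by omega)
      rw [hl m hm] at e'
      simpa using e'
    · rfl
  pslot {t π} hp := by
    have hL : T.PLine (phome T π) 0 π := by
      refine ⟨?_, fun l hl => ⟨?_, ?_⟩⟩ <;> rw [Tower.zs_eq]
      exacts [(dsym_pmarkAt T 0 π).1, (dsym_pmarkAt T 0 π).2 l hl, (dsym_pmarkAt T 1 π).2 l hl]
    show (if _ then _ else _) = _
    rw [if_pos (hL.flags 0 (Nat.zero_le _)).1]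
    exact lval_of_on padH (show On Mid.phash Mid.pad _ (fun n => p n t) π.length from
      ⟨hL.1, fun m hm => (hL.2 m hm).1.trans (by rw [hp m hm])⟩)
  pslot_off {t π} hp := by
    show (if _ then _ else _) = _
    split
    · refine lval_none fun n hn => hp fun m hm => ?_
      have hh : T.zs (phome T π) π.length 0 = some .phash := by
        rw [Tower.zs_eq]; exact (dsym_pmarkAt T 0 π).1
      have hl : ∀ l (hl : l < π.length), T.zs (phome T π) l 0 = some (.pad π[l]) := fun l hl => by
        rw [Tower.zs_eq]; exact (dsym_pmarkAt T 0 π).2 l hl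
      have e : n = π.length := On.unique padH hn (c' := fun m => π.getD m false)
        ⟨hh, fun m hm => by
          simpa [List.getD_eq_getElem?_getD, List.getElem?_eq_getElem hm] using hl m hm⟩
      have e' : T.zs (phome T π) m 0 = some (.pad (p m t)) := hn.2 m (by omega)
      rw [hl m hm] at e'
      simpa using e'
    · rfl

variable {C : Common k em}

/-- The fields of `y` over a common point. -/
noncomputable def fieldsPt (E : EffAction K g) (c : C.S.X) (y : ℕ → Bool) (p : K × Lat) : Letter C :=
  (c.1 p.2, fieldsOf (C.tower c) (codeAt E y p.1) (Multiplicative.toAdd p.2).1)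

lemma toAdd_mul_unitP (v : Lat) (b : Fin 2) :
    (Multiplicative.toAdd (v * unitP b)).1 = (Multiplicative.toAdd v).1 := by
  simp [unitP]

lemma edgeOK_fieldsPt {y : ℕ → Bool} (hy : y ∈ E.Y) (c : C.S.X) (u : K) (v : Lat) (s : Fin k) :
    EdgeOK s (fieldsPt E c y (u, v)).2 (fieldsPt E c y (u * g s, v)).2 := by
  intro i
  simp only [fieldsPt, fieldsOf]
  split
  · congr 1
    funext n
    rw [codeAt_eq hy, codeAt_eq hy]
    exact path_edge hy u s n
  · rfl

lemma lineOK_fieldsPt (c : C.S.X) (y : ℕ → Bool) (u : K) (v : Lat) (a : Fin 3) :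
    LineOK a (fieldsPt E c y (u, v)).2 (fieldsPt E c y (u, v * unitC a)).2 := by
  classical
  let v₀ := (Multiplicative.toAdd v).1
  have e : (Multiplicative.toAdd (v * unitC a)).1 = Function.update v₀ a (v₀ a + 1) := by
    funext j
    by_cases hj : j = a
    · subst hj; simp [unitC, v₀]
    · simp [unitC, v₀, hj]
  have hb := (C.tower c).beside 0 v₀ a
  have hz : ∀ j, j ≠ a → ∀ n, (C.tower c).zs (Function.update v₀ a (v₀ a + 1)) n j =
      (C.tower c).zs v₀ n j := fun j hj n => by
    simp [Tower.zs_eq, hj]
  constructor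
  · intro i hi
    subst hi
    obtain ⟨n1, n2, -⟩ := (fin3 i)
    replace n1 := n1.symm
    replace n2 := n2.symm
    have he := hb.eq i n1 n2
    have hp := hb.peq i n1 n2
    constructor
    · simp only [fieldsPt, fieldsOf, e, Tower.stAt_zero, ← he, hz i (Ne.symm n1)]
      rfl
    · funext s
      simp only [fieldsPt, fieldsOf, e, Tower.stAt_zero, ← hp, hz i (Ne.symm n1)]
      rfl
  · intro ha
    subst ha
    have h := hb.br rfl
    simp only [fieldsPt, fieldsOf, e, Tower.stAt_zero, Flags.HasB, ← h, hz 0 (by decide)]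
    congr 1

/-- The fields of `y` satisfy the rules inside a cell where starred words are bad. -/
lemma letterOK_fieldsPt {y : ℕ → Bool} (hy : y ∈ E.Y) (hem : EmitsBad E em) (c : C.S.X) (u : K)
    (v : Lat) (hbad : StarredBad E (C.tower c) (Multiplicative.toAdd v).1) :
    LetterOK C (fieldsPt E c y (u, v)) := by
  have h := cellOK_fieldsOf (E.mem u⁻¹ y hy) (fun {L} {w} h => ⟨hem.noExt L w h, hem.length_le L w h⟩) hbad
  rw [← codeAt_eq hy] at h
  simp only [Tower.stAt_zero] at h
  show CellOK (fun i => sym (C.own (c.1 v) i)) (C.flags (c.1 v)) (C.hit (c.1 v)) _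
  rw [show v = Multiplicative.ofAdd (Multiplicative.toAdd v) from rfl, C.own_tower, C.flags_tower,
    C.hit_tower]
  exact h

/-- The full layer has a point. -/
theorem nonempty (hem : EmitsBad E em) : Nonempty (cosetSFT C g).X := by
  classical
  obtain ⟨y, hy⟩ := E.nonempty
  obtain ⟨c₀⟩ := C.nonempty
  obtain ⟨B, -, hB⟩ := Rigid.exists_point (S := cosetSFT C g) ∅
  obtain ⟨w, -, hw⟩ := (C.tower c₀).exists_cell (B.sup (fun p => Finset.univ.sup fun i =>
    ((Multiplicative.toAdd p.2).1 i).natAbs) + 2) 0 fun _ _ => idle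
  generalize hP : B.sup (fun p => Finset.univ.sup fun i =>
    ((Multiplicative.toAdd p.2).1 i).natAbs) = P at hw
  let c : C.S.X := C.S.act (Multiplicative.ofAdd ((-w, 0) : V)) c₀
  have hdead : ∀ p ∈ B, ∀ i, (C.tower c).zs (Multiplicative.toAdd p.2).1 (P + 1) i = none := by
    intro p hp i
    obtain ⟨e, -⟩ := C.tower_act c₀ (-w, 0) (Multiplicative.toAdd p.2) (P + 1)
    show sym _ = none
    rw [show (C.tower c).digit (Multiplicative.toAdd p.2).1 (P + 1) = _ from e]
    let v : Fin 3 → ℤ := (Multiplicative.toAdd p.2 - (-w, 0) : V).1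
    show sym ((C.tower c₀).digit v (P + 1) i) = none
    have hbound : ((Multiplicative.toAdd p.2).1 i).natAbs ≤ P := hP ▸ le_trans
      (Finset.le_sup (f := fun i => ((Multiplicative.toAdd p.2).1 i).natAbs) (Finset.mem_univ i))
      (Finset.le_sup (f := fun p : K × Lat => Finset.univ.sup fun i =>
        ((Multiplicative.toAdd p.2).1 i).natAbs) hp)
    have hpow : (P : ℤ) ≤ (base k : ℤ) ^ P := by
      have := Nat.lt_pow_self (n := P) (show 1 < base k by unfold base; omega)
      exact_mod_cast this.le
    have hd := hw P (by omega) i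
    obtain ⟨ht, -⟩ := (C.tower c₀).tile_succ_of_middle (v := w) (w := v) (n := P) (i := i)
      (by rw [hd]; simp [idle]) (by rw [hd]; simp [idle]; unfold base; omega) (by
        have : v i - w i = (Multiplicative.toAdd p.2).1 i := by simp [v]
        rw [this, Int.abs_eq_natAbs]
        exact (Int.ofNat_le.2 hbound).trans hpow)
    rw [(C.tower c₀).digit_above ht le_rfl, hw (P + 1) (by omega) i, sym_idle]
  obtain ⟨x, -⟩ := hB (fieldsPt E c y) fun γ hγ => by
    have hmem : ∀ o (q : Place), ((γ.1 * coset g o, γ.2 * pv q) : K × Lat) ∈ B :=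
      fun o q => hγ _ (mem_cosetWin g o q)
    have hr : ∀ o (q : Place), readWin C g ((cosetSFT C g).window (fieldsPt E c y) γ) o (pv q) =
        fieldsPt E c y (γ.1 * coset g o, γ.2 * pv q) :=
      fun o q => readWin_window _ _ _ o (pv_mem_cube q)
    refine ⟨fun o => ?_, fun o q => ?_, fun s q => ?_, fun s q => ?_, fun o q b hb => ?_,
      fun o q a ha => ?_⟩
    · convert c.2 γ.2 using 1
      funext q
      rw [readWin_window _ _ _ o (C.win_eq ▸ q.2)]
      rfl
    · rw [hr]
      exact letterOK_fieldsPt hy hem c _ _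
        (starredBad_of_dead hem (hdead _ (hmem o q) 0) (hdead _ (hmem o q) 2))
    · rw [hr, hr]
      rfl
    · rw [hr, hr]
      simp only [coset, mul_one]
      exact edgeOK_fieldsPt hy c _ _ s
    · rw [hr, hr, pv_update_snd q b hb, ← mul_assoc]
      simp only [fieldsPt, toAdd_mul_unitP]
    · rw [hr, hr, pv_update_fst q a ha, ← mul_assoc]
      exact lineOK_fieldsPt c y _ _ a
  exact ⟨x⟩

/-- Over a reset common point every point of the action gives a point, which reads its codes. -/
theorem existPoint (hem : EmitsBad E em) : ExistPoint C E := by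
  intro c hR y hy
  let x : (cosetSFT C g).X := mkPoint c (fun u v => (fieldsPt E c y (u, v)).2)
    (fun u v => letterOK_fieldsPt hy hem c u v (starredBad_of_reset hem hR _))
    (fun u v s => edgeOK_fieldsPt hy c u v s)
    (fun u v b => by simp only [fieldsPt, toAdd_mul_unitP])
    (fun u v a => lineOK_fieldsPt c y u v a)
  refine ⟨x, rfl, fun u => ?_⟩
  have ho : One (C.tower c) (counter fun v => (x.1 (u, v)).2) :=
    (OneOK.toOne ⟨fun v => ((winOK_iff x.1).1 x.2).cell u v, ((winOK_iff x.1).1 x.2).plane u, ((winOK_iff x.1).1 x.2).line u⟩)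
  have e : (counter fun v => (x.1 (u, v)).2) = fieldsOf (C.tower c) (codeAt E y u) := rfl
  rw [e] at ho ⊢
  exact reads_fieldsOf ho

/-- The full layer is minimal and free once limit states are realised. -/
theorem minimalFree_of_realisable (hgen : Subgroup.closure (Set.range g) = ⊤) (hem : EmitsBad E em)
    (hre : Realisable C E) : (cosetSFT C g).MinimalFree := by
  have hem' : ∀ w, NoExt E w → ∃ L, w.length ≤ L ∧ em L = some w := fun w hw => by
    obtain ⟨L, -, hL⟩ := hem.complete w hw 0
    exact ⟨L, hem.length_le L w hL, hL⟩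
  refine ⟨nonempty hem, fun x y U => ?_, free E hgen hem'⟩
  obtain ⟨c, hc, A, hA, hag⟩ := hre y U
  obtain ⟨z, hzc, hzr⟩ := existPoint hem c hc A hA
  obtain ⟨γ, hγ⟩ := recur_reset E hgen hem' z (hzc.symm ▸ hc) x U
  exact ⟨γ, fun p hp => (hγ p hp).trans (hag z hzc hzr p hp).symm⟩

end Vale.Agent.P193.W4.Coset
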