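import Vale.Agent.P193.W4.Coset.Sem

/-!
P193, module W4 B (`notes/P193_W4_frozen.md`, section 3): the fields given by a point of the action
over a tower. They satisfy the rules of the coset layer where starred words begin no path.
-/

namespace Vale.Agent.P193.W4.Coset

open Vale.Agent.P193.Action

variable {k : ℕ}

/-! ### The value of a line against a sequence -/

/-- The axis `z` has the mark `h` at level `n` above the first `n` letters of `c`. -/
def On {α : Type} (h : Mid k) (mk : α → Mid k) (z : ℕ → Option (Mid k)) (c : ℕ → α) (n : ℕ) :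
    Prop :=
  z n = some h ∧ ∀ m < n, z m = some (mk (c m))

open Classical in
/-- The letter of `c` at the mark, if the line follows `c` up to it. -/
noncomputable def lval {α : Type} (h : Mid k) (mk : α → Mid k) (z : ℕ → Option (Mid k))
    (c : ℕ → α) : Option α :=
  if e : ∃ n, On h mk z c n then some (c (Nat.find e)) else none

section lval

variable {α : Type} {h : Mid k} {mk : α → Mid k} {z z' : ℕ → Option (Mid k)} {c c' : ℕ → α}
  {n n' : ℕ}

lemma On.unique (hne : ∀ a, mk a ≠ h) (e : On h mk z c n) (e' : On h mk z c' n') : n = n' := by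
  rcases lt_trichotomy n n' with hlt | heq | hlt
  · exact absurd (Option.some.inj ((e'.2 n hlt).symm.trans e.1)) (hne _)
  · exact heq
  · exact absurd (Option.some.inj ((e.2 n' hlt).symm.trans e'.1)) (hne _)

lemma lval_of_on (hne : ∀ a, mk a ≠ h) (e : On h mk z c n) : lval h mk z c = some (c n) := by
  classical
  have he : ∃ m, On h mk z c m := ⟨n, e⟩
  rw [lval, dif_pos he, (Nat.find_spec he).unique hne e]

lemma lval_none (e : ∀ n, ¬On h mk z c n) : lval h mk z c = none := by
  classical
  rw [lval, dif_neg]
  rintro ⟨n, hn⟩
  exact e n hn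

lemma lval_eq_some {d : α} (hne : ∀ a, mk a ≠ h) :
    lval h mk z c = some d ↔ ∃ n, On h mk z c n ∧ c n = d := by
  constructor
  · intro e
    by_cases he : ∃ n, On h mk z c n
    · obtain ⟨n, hn⟩ := he
      exact ⟨n, hn, Option.some.inj ((lval_of_on hne hn).symm.trans e)⟩
    · rw [lval_none fun n hn => he ⟨n, hn⟩] at e
      exact (Option.some_ne_none d e.symm).elim
  · rintro ⟨n, hn, rfl⟩
    exact lval_of_on hne hn

lemma lval_isSome (hne : ∀ a, mk a ≠ h) :
    (lval h mk z c).isSome ↔ ∃ n, On h mk z c n := by
  rw [Option.isSome_iff_exists]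
  simp only [lval_eq_some hne]
  exact ⟨fun ⟨_, n, hn, _⟩ => ⟨n, hn⟩, fun ⟨n, hn⟩ => ⟨_, n, hn, rfl⟩⟩

/-- At a mark on `z`, the value depends on the symbols up to it and the letters up to it. -/
lemma lval_congr (hne : ∀ a, mk a ≠ h) (hn : z n = some h) (hz : ∀ m ≤ n, z m = z' m)
    (hc : ∀ m ≤ n, c m = c' m) : lval h mk z c = lval h mk z' c' := by
  have hiff : ∀ p, On h mk z c p ↔ On h mk z' c' p := by
    intro p
    constructor
    · intro e
      have hp : p ≤ n := not_lt.1 fun hlt =>
        hne _ (Option.some.inj ((e.2 n hlt).symm.trans hn))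
      exact ⟨(hz p hp).symm.trans e.1, fun m hm => by
        rw [← hz m (by omega), ← hc m (by omega)]; exact e.2 m hm⟩
    · intro e
      have hp : p ≤ n := not_lt.1 fun hlt =>
        hne _ (Option.some.inj ((e.2 n hlt).symm.trans ((hz n le_rfl).symm.trans hn)))
      exact ⟨(hz p hp).trans e.1, fun m hm => by
        rw [hz m (by omega), hc m (by omega)]; exact e.2 m hm⟩
  by_cases he : ∃ p, On h mk z c p
  · obtain ⟨p, hp⟩ := he
    have hle : p ≤ n := not_lt.1 fun hlt =>
      hne _ (Option.some.inj ((hp.2 n hlt).symm.trans hn))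
    rw [lval_of_on hne hp, lval_of_on hne ((hiff p).1 hp), hc p hle]
  · rw [lval_none fun p hp => he ⟨p, hp⟩, lval_none fun p hp => he ⟨p, (hiff p).2 hp⟩]

/-- Two lines obey the relation given by the top of the shorter one. -/
lemma holds_top (hne : ∀ a, mk a ≠ h) (hinj : Function.Injective mk) {letter : Mid k → Option α}
    (hlet : ∀ a, letter (mk a) = some a) (hn : z n = some h)
    (hl : ∀ m < n, ∃ a, z m = some (mk a) ∧ z' m = some (mk a))
    (htop : z' n = some h ∨ ∃ a, z' n = some (mk a)) :
    (Tower.relTop h letter (z' n) (z' (n + 1))).Holds (lval h mk z c) (lval h mk z' c) := by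
  have key : ∀ {p}, On h mk z' c p → n ≤ p := fun {p} e => not_lt.1 fun hlt => by
    obtain ⟨a, -, ha⟩ := hl p hlt
    exact hne a (Option.some.inj (ha.symm.trans e.1))
  have low : (∀ m < n, z' m = some (mk (c m))) → On h mk z c n := fun e => ⟨hn, fun m hm => by
    obtain ⟨a, ha, ha'⟩ := hl m hm
    rw [ha, ← ha', e m hm]⟩
  rcases htop with ht | ⟨d, ht⟩
  · simp only [Tower.relTop, ht, if_true, Rel.Holds]
    by_cases he : ∀ m < n, z' m = some (mk (c m))
    · rw [lval_of_on hne (low he), lval_of_on hne (show On h mk z' c n from ⟨ht, he⟩)]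
    · rw [lval_none, lval_none]
      · intro p e
        exact he fun m hm => e.2 m (hm.trans_le (key e))
      · intro p e
        have hp : p = n := On.unique hne e (c' := c) ⟨hn, fun m hm => by
          have hp : ¬p < m + 1 := fun hlt => by
            obtain ⟨a, ha, -⟩ := hl p (by omega)
            exact hne a (Option.some.inj (ha.symm.trans e.1))
          exact e.2 m (by omega)⟩
        subst hp
        exact he fun m hm => by
          obtain ⟨a, ha, ha'⟩ := hl m hm
          rw [ha', ← ha, e.2 m hm]
  · have hsome : (lval h mk z' c).isSome → lval h mk z c = some d := by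
      intro e
      obtain ⟨p, hp⟩ := (lval_isSome hne).1 e
      have hlt : n < p := lt_of_le_of_ne (key hp) fun heq => by
        subst heq
        exact hne d (Option.some.inj (ht.symm.trans hp.1))
      rw [lval_of_on hne (low fun m hm => hp.2 m (by omega))]
      exact congrArg some (hinj (Option.some.inj ((hp.2 n hlt).symm.trans ht)))
    by_cases hu : z' (n + 1) = some h
    · simp only [Tower.relTop, ht, if_neg (hne d), hlet, if_pos hu, Rel.Holds]
      refine ⟨fun e => ?_, hsome⟩
      obtain ⟨p, hp, hd⟩ := (lval_eq_some hne).1 e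
      have : p = n := On.unique hne hp (c' := c) (low fun m hm => by
        have hp' : ¬p ≤ m := fun hle => by
          obtain ⟨a, ha, -⟩ := hl p (by omega)
          exact hne a (Option.some.inj (ha.symm.trans hp.1))
        obtain ⟨a, ha, ha'⟩ := hl m hm
        rw [ha', ← ha, hp.2 m (by omega)])
      subst this
      refine (lval_isSome hne).2 ⟨p + 1, hu, fun m hm => ?_⟩
      rcases Nat.lt_succ_iff_lt_or_eq.1 hm with hm | rfl
      · obtain ⟨a, ha, ha'⟩ := hl m hm
        rw [ha', ← ha, hp.2 m hm]
      · rw [ht, hd]
    · simp only [Tower.relTop, ht, if_neg (hne d), hlet, if_neg hu, Rel.Holds]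
      exact hsome

end lval

/-! ### The fields -/

variable {em : ℕ → Option (List (Full k))} (T : Tower k em)

open Classical in
/-- The fields at a cell given by the path `c` of the coset. -/
noncomputable def fieldsOf (c : ℕ → Full k) (v : Fin 3 → ℤ) : JCell k where
  J i := if (T.stAt v 0).flags.eq i = true then lval .hash .full (fun n => T.zs v n i) c else none
  B := if (T.stAt v 0).flags.HasB then lval .hash .full (fun n => T.zs v n 0) c else none
  Q i s :=
    if (T.stAt v 0).flags.peq i = true then
      lval .phash .pad (fun n => T.zs v n i) fun n => c n s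
    else none

lemma fullH (d : Full k) : Mid.full d ≠ (Mid.hash : Mid k) := by simp

lemma padH (b : Bool) : Mid.pad b ≠ (Mid.phash : Mid k) := by simp

/-- A present line has a mark with the letters below it, or letters only. -/
lemma eq_cases {v : Fin 3 → ℤ} {i : Fin 3} (h : (T.stAt v 0).flags.eq i = true) :
    (∃ σ, T.Line v i σ) ∨ ∀ m, ∃ d, T.zs v m i = some (.full d) ∧ T.zs v m (i + 1) = some (.full d) := by
  classical
  by_cases hn : ∃ m, ¬∃ d, T.zs v m i = some (.full d) ∧ T.zs v m (i + 1) = some (.full d)
  · left
    let n := Nat.find hn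
    have hlow : ∀ m < n, ∃ d, T.zs v m i = some (.full d) ∧ T.zs v m (i + 1) = some (.full d) :=
      fun m hm => not_not.1 (Nat.find_min hn hm)
    choose d hd using hlow
    have heq : ∀ m ≤ n, (T.stAt v m).flags.eq i = true := by
      intro m hm
      induction m with
      | zero => exact h
      | succ m ih =>
        have := ih (by omega)
        rw [T.flags_step] at this
        simpa [Flags.step, (hd m (by omega)).1, (hd m (by omega)).2] using this
    have htop := heq n le_rfl
    rw [T.flags_step] at htop
    have hh : T.zs v n i = some .hash := by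
      rcases hz : T.zs v n i with _ | m
      · simp [Flags.step, hz] at htop
      cases m with
      | hash => rfl
      | full d' =>
        simp [Flags.step, hz] at htop
        exact absurd ⟨d', hz, htop.2⟩ (Nat.find_spec hn)
      | _ => simp [Flags.step, hz] at htop
    refine ⟨List.ofFn fun m : Fin n => d m m.2, ?_, fun l hl => ?_⟩
    · simpa using hh
    · simp only [List.length_ofFn] at hl
      simpa using hd l hl
  · exact .inr fun m => not_not.1 fun e => hn ⟨m, e⟩

/-- The same for a projection line. -/
lemma peq_cases {v : Fin 3 → ℤ} {i : Fin 3} (h : (T.stAt v 0).flags.peq i = true) :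
    (∃ π, T.PLine v i π) ∨ ∀ m, ∃ b, T.zs v m i = some (.pad b) ∧ T.zs v m (i + 1) = some (.pad b) := by
  classical
  by_cases hn : ∃ m, ¬∃ b, T.zs v m i = some (.pad b) ∧ T.zs v m (i + 1) = some (.pad b)
  · left
    let n := Nat.find hn
    have hlow : ∀ m < n, ∃ b, T.zs v m i = some (.pad b) ∧ T.zs v m (i + 1) = some (.pad b) :=
      fun m hm => not_not.1 (Nat.find_min hn hm)
    choose d hd using hlow
    have heq : ∀ m ≤ n, (T.stAt v m).flags.peq i = true := by
      intro m hm
      induction m with
      | zero => exact h
      | succ m ih =>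
        have := ih (by omega)
        rw [T.flags_step] at this
        simpa [Flags.step, (hd m (by omega)).1, (hd m (by omega)).2] using this
    have htop := heq n le_rfl
    rw [T.flags_step] at htop
    have hh : T.zs v n i = some .phash := by
      rcases hz : T.zs v n i with _ | m
      · simp [Flags.step, hz] at htop
      cases m with
      | phash => rfl
      | pad d' =>
        simp [Flags.step, hz] at htop
        exact absurd ⟨d', hz, htop.2⟩ (Nat.find_spec hn)
      | _ => simp [Flags.step, hz] at htop
    refine ⟨List.ofFn fun m : Fin n => d m m.2, ?_, fun l hl => ?_⟩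
    · simpa using hh
    · simp only [List.length_ofFn] at hl
      simpa using hd l hl
  · exact .inr fun m => not_not.1 fun e => hn ⟨m, e⟩

/-- The same for a bridge. -/
lemma br_cases {v : Fin 3 → ℤ} {s : Option (Fin k)} (h : (T.stAt v 0).flags.br s = true) :
    (∃ σ, T.Bridge v s σ) ∨
      ∀ m, ∃ d, T.zs v m 0 = some (.full d) ∧ T.zs v m 1 = some (.pad (d s)) := by
  classical
  by_cases hn : ∃ m, ¬∃ d, T.zs v m 0 = some (.full d) ∧ T.zs v m 1 = some (.pad (d s))
  · left
    let n := Nat.find hn
    have hlow : ∀ m < n, ∃ d, T.zs v m 0 = some (.full d) ∧ T.zs v m 1 = some (.pad (d s)) :=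
      fun m hm => not_not.1 (Nat.find_min hn hm)
    choose d hd using hlow
    have heq : ∀ m ≤ n, (T.stAt v m).flags.br s = true := by
      intro m hm
      induction m with
      | zero => exact h
      | succ m ih =>
        have := ih (by omega)
        rw [T.flags_step] at this
        simpa [Flags.step, (hd m (by omega)).1, (hd m (by omega)).2] using this
    have htop := heq n le_rfl
    rw [T.flags_step] at htop
    have hh : T.zs v n 0 = some .hash ∧ T.zs v n 1 = some .phash := by
      rcases hz : T.zs v n 0 with _ | m
      · simp [Flags.step, hz] at htop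
      cases m with
      | hash =>
        simp [Flags.step, hz] at htop
        exact ⟨rfl, htop⟩
      | full d' =>
        simp [Flags.step, hz] at htop
        exact absurd ⟨d', hz, htop.2⟩ (Nat.find_spec hn)
      | _ => simp [Flags.step, hz] at htop
    refine ⟨List.ofFn fun m : Fin n => d m m.2, ?_, fun l hl => ?_⟩
    · simpa using hh
    · simp only [List.length_ofFn] at hl
      simpa using hd l hl
  · exact .inr fun m => not_not.1 fun e => hn ⟨m, e⟩

variable {T}

lemma line_axis {v : Fin 3 → ℤ} {i : Fin 3} (h : (T.stAt v 0).flags.eq i = true) (n : ℕ) :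
    (∀ m < n, ∃ a, T.zs v m i = some (.full a)) →
      T.zs v n i = some .hash ∨ ∃ a, T.zs v n i = some (.full a) := by
  intro hlow
  rcases eq_cases T h with ⟨σ, hh, hσ⟩ | hall
  · rcases lt_trichotomy n σ.length with hlt | rfl | hlt
    · exact .inr ⟨_, (hσ n hlt).1⟩
    · exact .inl hh
    · obtain ⟨a, ha⟩ := hlow σ.length hlt
      simp [hh] at ha
  · obtain ⟨a, ha, -⟩ := hall n
    exact .inr ⟨a, ha⟩

lemma pline_axis {v : Fin 3 → ℤ} {i : Fin 3} (h : (T.stAt v 0).flags.peq i = true) (n : ℕ) :
    (∀ m < n, ∃ a, T.zs v m i = some (.pad a)) →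
      T.zs v n i = some .phash ∨ ∃ a, T.zs v n i = some (.pad a) := by
  intro hlow
  rcases peq_cases T h with ⟨σ, hh, hσ⟩ | hall
  · rcases lt_trichotomy n σ.length with hlt | rfl | hlt
    · exact .inr ⟨_, (hσ n hlt).1⟩
    · exact .inl hh
    · obtain ⟨a, ha⟩ := hlow σ.length hlt
      simp [hh] at ha
  · obtain ⟨a, ha, -⟩ := hall n
    exact .inr ⟨a, ha⟩

lemma bridge_axis {v : Fin 3 → ℤ} (h : (T.stAt v 0).flags.HasB) (n : ℕ) :
    (∀ m < n, ∃ a, T.zs v m 0 = some (.full a)) →
      T.zs v n 0 = some .hash ∨ ∃ a, T.zs v n 0 = some (.full a) := by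
  intro hlow
  obtain ⟨s, hs⟩ := h
  rcases br_cases T hs with ⟨σ, hh, hσ⟩ | hall
  · rcases lt_trichotomy n σ.length with hlt | rfl | hlt
    · exact .inr ⟨_, (hσ n hlt).1⟩
    · exact .inl hh.1
    · obtain ⟨a, ha⟩ := hlow σ.length hlt
      simp [hh.1] at ha
  · obtain ⟨a, ha, -⟩ := hall n
    exact .inr ⟨a, ha⟩

/-- Starred words at a marker of the axis `0` above letters begin no path. -/
def StarredBad {K : Type} [Group K] {g : Fin k → K} (E : EffAction K g) (T : Tower k em)
    (v : Fin 3 → ℤ) : Prop :=
  ∀ w : List (Full k), w ≠ [] → T.zs v w.length 0 = some .hash →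
    (∀ m < w.length, ∃ a, T.zs v m 0 = some (.full a)) →
    (T.stAt v (w.length + 1)).word = some (padWord (w.length + 1) w) → NoExt E w

variable {K : Type} [Group K] {g : Fin k → K} {E : EffAction K g}

/-- A matched word is the word of a marker, and it begins no path. -/
lemma kill {v : Fin 3 → ℤ} {y : ℕ → Bool} (hy : y ∈ E.Y)
    (hem : ∀ {L : ℕ} {w : List (Full k)}, em L = some w → NoExt E w ∧ w.length ≤ L)
    (hbad : StarredBad E T v) (hhit : (T.stAt v 0).hit = true) {n : ℕ}
    (hn : On .hash .full (fun m => T.zs v m 0) (path E y) n) : False := by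
  have hhit' : ∀ m ≤ n, (T.stAt v m).hit = true ∧ ∀ j < m,
      T.zs v j 2 = some .pass ∧ topLetter (T.stAt v (j + 1)).word = some (path E y j) := by
    intro m hm
    induction m with
    | zero => exact ⟨hhit, fun j hj => absurd hj (Nat.not_lt_zero j)⟩
    | succ m ih =>
      obtain ⟨h1, h2⟩ := ih (by omega)
      have hf : T.zs v m 0 = some (.full (path E y m)) := hn.2 m (by omega)
      rw [T.stAt_step] at h1
      simp only [St.step] at h1
      rcases hz : T.zs v m 2 with _ | z
      · simp [matchStep, hz, hf] at h1
      cases z with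
      | pass =>
        simp [matchStep, hz, hf] at h1
        refine ⟨h1.1, fun j hj => ?_⟩
        rcases Nat.lt_succ_iff_lt_or_eq.1 hj with hj | rfl
        · exact h2 j hj
        · exact ⟨hz, h1.2⟩
      | _ => simp [matchStep, hz, hf] at h1
  obtain ⟨htop, hbelow⟩ := hhit' n le_rfl
  have h0n : T.zs v n 0 = some .hash := hn.1
  rw [T.stAt_step] at htop
  simp only [St.step] at htop
  have htopn : (topLetter (T.stAt v n).word).isSome := by
    rw [T.stAt_step]
    rcases hz : T.zs v n 2 with _ | z
    · simp [matchStep, hz, h0n] at htop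
    cases z with
    | reset => simpa [matchStep, hz, h0n, St.step] using htop
    | pass =>
      simp [matchStep, hz, h0n] at htop
      simpa [St.step, hz] using htop.1
    | _ => simp [matchStep, hz, h0n] at htop
  obtain ⟨W, hW⟩ : ∃ W, (T.stAt v n).word = some W := by
    rcases hw : (T.stAt v n).word with _ | W
    · simp [hw, topLetter] at htopn
    · exact ⟨W, rfl⟩
  obtain ⟨hlen, hstar⟩ := T.wordOK n _ W hW
  have hn0 : 0 < n := by
    by_contra h0
    obtain rfl : W = [] := List.eq_nil_of_length_eq_zero (by omega)
    simp [hW, topLetter] at htopn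
  have hget : ∀ m (h : m < n), W[m]'(hlen.symm ▸ h) = some (path E y m) := by
    intro m hm
    have e := (hbelow m hm).2
    rw [T.word_of_pass hW hlen (fun j hj => (hbelow j hj).1) (m + 1) hm,
      Tower.topLetter_top (by omega) (by omega)] at e
    simpa using e
  let w : List (Full k) := List.ofFn fun m : Fin n => path E y m
  have hWw : W = w.map some := List.ext_getElem (by simp [w, hlen]) fun m h1 h2 => by
    simp [w, hget m (by omega)]
  have hwne : w ≠ [] := fun e => by
    have := congrArg List.length e
    simp [w] at this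
    omega
  have hno : ∀ u, NoExt E u → IsPreW u (path E y) → False := fun u hu hp => hu y hy hp
  refine hno w ?_ fun i hi => by simp [w]
  rw [T.stAt_step] at hW
  simp only [St.step] at hW
  rcases hz : T.zs v n 2 with _ | z
  · simp [hz, wordStep] at hW
  cases z with
  | reset =>
    rw [hz] at hW
    obtain ⟨u, hu, hpad⟩ := Option.map_eq_some_iff.1
      (show (em n).map (padWord n) = some W from hW)
    obtain ⟨hu1, hu2⟩ := hem hu
    have : u = w := by
      have hul : u.length = n := by
        by_contra hne
        have h1 := hget (u.length) (by omega)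
        simp [← hpad, padWord] at h1
      have h2 : u.map some = w.map some := by
        rw [← hWw, ← hpad]
        simp [padWord, hul]
      exact (List.map_injective_iff.2 (Option.some_injective _)) h2
    exact this ▸ hu1
  | pass =>
    rw [hz] at hW
    simp [matchStep, hz, h0n] at htop
    obtain ⟨W', hW', htake⟩ := Option.map_eq_some_iff.1
      (show Option.map (List.take n) (T.stAt v (n + 1)).word = some W from hW)
    obtain ⟨hlen', -⟩ := T.wordOK (n + 1) _ W' hW'
    have hlast : W'[n]'(by omega) = none := by
      have h2 := htop.2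
      rw [hW'] at h2
      simpa [topLetter, List.getLast?_eq_getElem?, hlen'] using h2
    refine hbad w hwne (by simpa [w] using hn.1) (fun m hm => ⟨_, hn.2 m (by simpa [w] using hm)⟩) ?_
    have hwl : w.length = n := by simp [w]
    rw [hwl, hW']
    refine congrArg some ?_
    conv_lhs => rw [← List.take_append_drop n W']
    rw [htake, hWw, List.drop_eq_getElem_cons (by omega), hlast, List.drop_eq_nil_of_le (by omega),
      padWord, List.take_append, List.take_of_length_le (by simp [hwl]), List.take_replicate]
    simp [hwl]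
  | _ => simp [hz, wordStep] at hW

/-- The fields of a point of the action satisfy the rules inside a cell. -/
theorem cellOK_fieldsOf {y : ℕ → Bool} (hy : y ∈ E.Y)
    (hem : ∀ {L : ℕ} {w : List (Full k)}, em L = some w → NoExt E w ∧ w.length ≤ L)
    {v : Fin 3 → ℤ} (hbad : StarredBad E T v) :
    CellOK (T.zs v 0) (T.stAt v 0).flags (T.stAt v 0).hit (fieldsOf T (path E y) v) where
  absentJ i h := by simp [fieldsOf, h]
  absentB h := by classical simp [fieldsOf, h]
  absentQ i s h := by simp [fieldsOf, h]
  root i h := by
    have he : (T.stAt v 0).flags.eq i = true := by rw [T.flags_step]; simp [Flags.step, h]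
    simp [fieldsOf, he, lval_of_on fullH (show On .hash .full (fun n => T.zs v n i) (path E y) 0 from
      ⟨h, fun m hm => absurd hm (Nat.not_lt_zero m)⟩)]
  rootQ i s h := by
    have he : (T.stAt v 0).flags.peq i = true := by rw [T.flags_step]; simp [Flags.step, h]
    simp [fieldsOf, he, lval_of_on padH
      (show On .phash .pad (fun n => T.zs v n i) (fun n => path E y n s) 0 from
        ⟨h, fun m hm => absurd hm (Nat.not_lt_zero m)⟩)]
  nested i h h' := by
    simp only [fieldsOf, h, h', if_true]
    rcases eq_cases T h with ⟨σ, hσ⟩ | hall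
    · rw [(One.flags_line hσ).2]
      exact holds_top fullH (fun a b e => by simpa using e) (fun a => rfl) hσ.1
        (fun m hm => ⟨_, (hσ.2 m hm).1, (hσ.2 m hm).2⟩)
        (line_axis h' σ.length fun m hm => ⟨_, (hσ.2 m hm).2⟩)
    · have e1 : ∀ n, ¬On .hash .full (fun n => T.zs v n i) (path E y) n := fun n e => by
        obtain ⟨d, hd, -⟩ := hall n
        simp [e.1] at hd
      have e2 : ∀ n, ¬On .hash .full (fun n => T.zs v n (i + 1)) (path E y) n := fun n e => by
        obtain ⟨d, -, hd⟩ := hall n
        simp [e.1] at hd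
      rw [lval_none e1, lval_none e2]
      cases (T.stAt v 0).flags.rel i <;> simp [Rel.Holds]
  nestedB h h' := by
    classical
    simp only [fieldsOf, h, h', if_true]
    rcases eq_cases T h with ⟨σ, hσ⟩ | hall
    · rw [(One.flags_line hσ).2]
      exact holds_top fullH (fun a b e => by simpa using e) (fun a => rfl) hσ.1
        (fun m hm => ⟨_, (hσ.2 m hm).1, (hσ.2 m hm).2⟩)
        (bridge_axis h' σ.length fun m hm => ⟨_, (hσ.2 m hm).2⟩)
    · have e1 : ∀ n, ¬On .hash .full (fun n => T.zs v n 2) (path E y) n := fun n e => by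
        obtain ⟨d, hd, -⟩ := hall n
        simp [e.1] at hd
      have e2 : ∀ n, ¬On .hash .full (fun n => T.zs v n 0) (path E y) n := fun n e => by
        obtain ⟨d, -, hd⟩ := hall n
        rw [show (2 : Fin 3) + 1 = 0 from rfl] at hd
        simp [e.1] at hd
      rw [lval_none e1, lval_none e2]
      cases (T.stAt v 0).flags.rel 2 <;> simp [Rel.Holds]
  nestedQ i s h h' := by
    simp only [fieldsOf, h, h', if_true]
    rcases peq_cases T h with ⟨π, hπ⟩ | hall
    · rw [(hπ.flags 0 (Nat.zero_le _)).2]
      exact holds_top (α := Bool) (h := Mid.phash) (mk := Mid.pad) (z := fun n => T.zs v n i)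
        (z' := fun n => T.zs v n (i + 1)) (c := fun n => path E y n s) (letter := Tower.padOf) padH
        (fun a b e => by simpa using e) (fun a => rfl) hπ.1
        (fun m hm => ⟨_, (hπ.2 m hm).1, (hπ.2 m hm).2⟩)
        (pline_axis h' π.length fun m hm => ⟨_, (hπ.2 m hm).2⟩)
    · have e1 : ∀ n, ¬On .phash .pad (fun n => T.zs v n i) (fun n => path E y n s) n := fun n e => by
        obtain ⟨d, hd, -⟩ := hall n
        simp [e.1] at hd
      have e2 : ∀ n, ¬On .phash .pad (fun n => T.zs v n (i + 1)) (fun n => path E y n s) n :=
        fun n e => by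
          obtain ⟨d, -, hd⟩ := hall n
          simp [e.1] at hd
      rw [lval_none e1, lval_none e2]
      cases (T.stAt v 0).flags.prel i <;> simp [Rel.Holds]
  bridge h h' := by classical simp [fieldsOf, h, h']
  proj s b hs hp hB := by
    classical
    have hb : (T.stAt v 0).flags.HasB := ⟨s, hs⟩
    simp only [fieldsOf, hb, hp, if_true] at hB ⊢
    obtain ⟨n, hn, hd⟩ := (lval_eq_some fullH).1 hB
    rcases br_cases T hs with ⟨σ, hh, hσ⟩ | hall
    · have hnσ : n = σ.length := by
        rcases lt_trichotomy n σ.length with hlt | heq | hlt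
        · have e : T.zs v n 0 = some .hash := hn.1
          simp [(hσ n hlt).1] at e
        · exact heq
        · have e : T.zs v σ.length 0 = some (.full (path E y σ.length)) := hn.2 σ.length hlt
          simp [hh.1] at e
      subst hnσ
      rw [← hd]
      refine lval_of_on padH ⟨hh.2, fun m hm => ?_⟩
      have e : T.zs v m 0 = some (.full (path E y m)) := hn.2 m hm
      show T.zs v m 1 = _
      rw [(hσ m hm).2]
      rw [(hσ m hm).1] at e
      simp only [Option.some.injEq, Mid.full.injEq] at e
      rw [e]
    · obtain ⟨d, hd', -⟩ := hall n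
      have e : T.zs v n 0 = some .hash := hn.1
      simp [hd'] at e
  killJ h := by
    simp only [fieldsOf]
    split
    · exact lval_none fun n hn => kill hy hem hbad h hn
    · rfl
  killB h := by
    simp only [fieldsOf]
    split
    · exact lval_none fun n hn => kill hy hem hbad h hn
    · rfl

end Vale.Agent.P193.W4.Coset
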