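import Mathlib
import Vale.Agent.P193.W4.Tower.Build
import Vale.Agent.P193.W4.Minimal.Reduce
import Vale.Agent.P193.W4.Coset.MinimalFree

/-!
P193, module W4 B3: every common layer has a point with dead digits arbitrarily high at every cell,
a limit of translates of any point with the digits of a tower built from dead digits.
-/

namespace Vale.Agent.P193.W4.Coset

variable {k : ℕ} {em : ℕ → Option (List (Full k))}

/-- A common point with dead digits arbitrarily high at every cell. -/
theorem exists_reset (C : Common k em) : ∃ c : C.S.X, (C.tower c).Reset := by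
  have hL : DigitLocal C.tower := fun v n => by
    obtain ⟨U, hU⟩ := C.local_tower v n
    exact ⟨U, fun x x' h => (hU x x' h).1⟩
  let D : ℕ → Set C.S.X := fun M =>
    ⋂ m : Fin M, {c | (C.tower c).digit 0 m = fun _ => idle}
  have hc : ∀ M, IsClosed (D M) := fun M =>
    isClosed_iInter fun m => digit_isClosed hL 0 m _
  have hnonempty : ∀ M, (D M).Nonempty := fun M => by
    obtain ⟨y⟩ := C.nonempty
    obtain ⟨v, -, hv⟩ := (C.tower y).exists_cell M 0 fun _ _ => idle
    refine ⟨C.S.act (Multiplicative.ofAdd ((-v, 0) : V)) y, Set.mem_iInter.2 fun m => ?_⟩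
    funext i
    have e := (C.tower_act y (-v, 0) 0 m).1
    simp only [Prod.fst_zero, zero_sub, Prod.neg_mk, neg_neg] at e
    rw [e]
    exact hv m m.isLt i
  have : CompactSpace C.S.X := compactSpace_points
  obtain ⟨c, hc'⟩ := IsCompact.nonempty_iInter_of_sequence_nonempty_isCompact_isClosed D
    (fun M y hy => Set.mem_iInter.2 fun m => Set.mem_iInter.1 hy ⟨m, Nat.lt_succ_of_lt m.isLt⟩)
    hnonempty (hc 0).isCompact hc
  have h0 : ∀ n, (C.tower c).digit 0 n = fun _ => idle := fun n =>
    Set.mem_iInter.1 (Set.mem_iInter.1 hc' (n + 1)) ⟨n, Nat.lt_succ_self n⟩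
  refine ⟨c, fun v i m => ?_⟩
  -- far above `v i` the tiles of `v` are those of the origin
  obtain ⟨n₀, hn₀⟩ : ∃ n₀ : ℕ, |v i| ≤ (base k : ℤ) ^ n₀ := by
    refine ⟨(v i).natAbs, ?_⟩
    have h2 : (v i).natAbs ≤ base k ^ (v i).natAbs :=
      (Nat.lt_pow_self (by unfold base; omega)).le
    rw [← Int.natCast_natAbs]
    exact_mod_cast h2
  have hi : ((C.tower c).digit 0 n₀ i).val = 1 := by rw [h0]; rfl
  obtain ⟨ht, -⟩ := (C.tower c).tile_succ_of_middle (v := 0) (w := v) (by rw [hi]; exact one_pos)
    (by rw [hi]; unfold base; omega) (by simpa using hn₀)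
  refine ⟨max m (n₀ + 1), le_max_left _ _, ?_⟩
  rw [(C.tower c).digit_above ht (le_max_right _ _), h0]
  exact sym_idle

end Vale.Agent.P193.W4.Coset
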